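import Vale.Agent.P235.Defs

/-!
The classes of sets and graphs used in the peeling theorems.
-/

namespace Vale.Agent.P235

variable {V : Type}

/-- Walks between interleaved pairs of the list meet. -/
def CrossOrder (G : SimpleGraph V) (L : List V) : Prop :=
  ∀ a b c d, [a, b, c, d].Sublist L → ∀ (p : G.Walk a c) (q : G.Walk b d),
    ∃ z, z ∈ p.support ∧ z ∈ q.support

/-- A map of all vertices into `ℓ₁`, `K`-Lipschitz on edges and dominating the metric on `S`. -/
def HasExt (G : SimpleGraph V) (S : Finset V) (K : ℝ) : Prop :=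
  ∀ ℓ : Sym2 V → ℝ, (∀ e, 0 < ℓ e) → ∃ (m : ℕ) (φ : V → Fin m → ℝ),
    (∀ a b, G.Adj a b → dist1 (φ a) (φ b) ≤ K * ℓ s(a, b)) ∧
      ∀ s ∈ S, ∀ t ∈ S, G.Reachable s t → gdist G ℓ s t ≤ dist1 (φ s) (φ t)

/-- A forest is left after `k` rounds of deleting a vertex set that has a list in which walks
joining interleaved pairs meet (as for the outer-face vertices of a plane drawing). -/
def Peel : ℕ → SimpleGraph V → Prop
  | 0, G => G.IsAcyclic
  | k + 1, G => ∃ (L : List V) (S : Finset V),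
      (∀ x, x ∈ S ↔ x ∈ L) ∧ CrossOrder G L ∧ Peel k (avoid G S)

/-- `G` has `k` pairwise vertex-disjoint cycles. -/
def DisjCycles (G : SimpleGraph V) (k : ℕ) : Prop :=
  ∃ c : Fin k → Σ v : V, G.Walk v v,
    (∀ i, (c i).2.IsCycle) ∧ ∀ i j, i ≠ j → ∀ z, z ∈ (c i).2.support → z ∉ (c j).2.support

end Vale.Agent.P235
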