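import Vale.Agent.P235.Classes

/-!
A set of vertices with a cyclic order in which walks joining interleaved pairs meet has a
nonexpansive map of the whole graph into `ℓ₁` that is isometric on the set.
-/

namespace Vale.Agent.P235

open SimpleGraph Finset

variable {V : Type} {G : SimpleGraph V}

lemma CrossOrder.sublist {L L' : List V} (h : CrossOrder G L) (hs : L'.Sublist L) :
    CrossOrder G L' :=
  fun a b c d hl => h a b c d (hl.trans hs)

lemma CrossOrder.rotate_cons {a : V} {L : List V} (h : CrossOrder G (a :: L)) :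
    CrossOrder G (L ++ [a]) := by
  intro w x y z hl p q
  obtain ⟨l₁, l₂, heq, h₁, h₂⟩ := List.sublist_append_iff.mp hl
  rcases List.sublist_singleton.mp h₂ with rfl | rfl
  · rw [List.append_nil] at heq
    exact h w x y z (heq ▸ h₁.trans (List.sublist_cons_self a L)) p q
  · have : [w, x, y] = l₁ ∧ z = a := by
      have hlen := congrArg List.length heq
      simp at hlen
      match l₁, heq, hlen with
      | [u, v, r], heq, _ =>
        simp at heq
        obtain ⟨rfl, rfl, rfl, rfl⟩ := heq
        exact ⟨rfl, rfl⟩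
    obtain ⟨rfl, rfl⟩ := this
    obtain ⟨v, hv₁, hv₂⟩ := h z w x y (h₁.cons_cons z) q.reverse p
    refine ⟨v, hv₂, ?_⟩
    rwa [Walk.support_reverse, List.mem_reverse] at hv₁

lemma CrossOrder.rotate : ∀ {A B : List V}, CrossOrder G (A ++ B) → CrossOrder G (B ++ A)
  | [], B, h => by simpa using h
  | a :: A, B, h => by
    have h' : CrossOrder G (A ++ (B ++ [a])) := by
      simpa using h.rotate_cons
    simpa using CrossOrder.rotate h'

/-- Total variation of a list of reals. -/
noncomputable def tv : List ℝ → ℝ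
  | [] => 0
  | [_] => 0
  | a :: b :: t => |a - b| + tv (b :: t)

/-- Total variation along the closed sequence. -/
noncomputable def cyc (L : List ℝ) : ℝ := tv (L ++ L.take 1)

lemma tv_split : ∀ (M : List ℝ) (a : ℝ) (N : List ℝ),
    tv (M ++ a :: N) = tv (M ++ [a]) + tv (a :: N)
  | [], a, N => by simp [tv]
  | [b], a, N => by simp [tv]
  | b :: c :: M, a, N => by
    have := tv_split (c :: M) a N
    simp only [List.cons_append, tv] at this ⊢
    linarith

lemma tv_ge_ends : ∀ (M : List ℝ) (a b : ℝ), |a - b| ≤ tv (a :: M ++ [b])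
  | [], a, b => by simp [tv]
  | c :: M, a, b => by
    have := tv_ge_ends M c b
    simp only [List.cons_append, tv] at this ⊢
    linarith [abs_sub_le a c b]

lemma cyc_rotate_cons (a : ℝ) (L : List ℝ) : cyc (a :: L) = cyc (L ++ [a]) := by
  cases L with
  | nil => rfl
  | cons b t =>
    have h := tv_split (b :: t) a [b]
    simp only [cyc, List.take_succ_cons, List.take_zero, List.cons_append, List.append_assoc,
      List.nil_append, tv] at h ⊢
    rw [h, abs_sub_comm a b]
    ring

lemma cyc_rotate : ∀ A B : List ℝ, cyc (A ++ B) = cyc (B ++ A)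
  | [], B => by simp
  | a :: A, B => by
    rw [List.cons_append, cyc_rotate_cons, List.append_assoc, cyc_rotate A (B ++ [a])]
    simp

lemma cyc_ge {L : List ℝ} {u v : ℝ} (hu : u ∈ L) (hv : v ∈ L) : 2 * |u - v| ≤ cyc L := by
  obtain ⟨A, B, rfl⟩ := List.append_of_mem hu
  rw [cyc_rotate, List.cons_append]
  have hv' : v = u ∨ v ∈ B ++ A := by
    simp only [List.mem_append, List.mem_cons] at hv ⊢
    tauto
  simp only [cyc, List.take_succ_cons, List.take_zero]
  rcases hv' with rfl | hv'
  · simpa using tv_ge_ends (B ++ A) v v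
  obtain ⟨A', B', h⟩ := List.append_of_mem hv'
  have h1 := tv_split (u :: A') v (B' ++ [u])
  have h2 := tv_ge_ends A' u v
  have h3 := tv_ge_ends B' v u
  rw [abs_sub_comm v u] at h3
  rw [h]
  simp only [List.cons_append, List.append_assoc] at h1 h2 h3 ⊢
  linarith

lemma getLast_bound : ∀ (L : List ℝ) (a lo : ℝ),
    (∀ u v w, [u, v, w].Sublist (a :: L) → v ≤ max u w) → (∀ z ∈ a :: L, lo ≤ z) →
    tv (a :: L) ≤ a + (a :: L).getLast (List.cons_ne_nil a L) - 2 * lo
  | [], a, lo, _, hlo => by
    have := hlo a (by simp)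
    simp [tv]
    linarith
  | b :: L, a, lo, hQ, hlo => by
    have hQ' : ∀ u v w, [u, v, w].Sublist (b :: L) → v ≤ max u w :=
      fun u v w h => hQ u v w (h.trans (List.sublist_cons_self a _))
    have hb := hlo b (by simp)
    have ha := hlo a (by simp)
    rw [List.getLast_cons (List.cons_ne_nil b L)]
    simp only [tv]
    rcases le_or_gt b a with hab | hab
    · have := getLast_bound L b lo hQ' (fun z hz => hlo z (List.mem_cons_of_mem a hz))
      rw [abs_of_nonneg (by linarith : 0 ≤ a - b)]
      linarith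
    · have hge : ∀ z ∈ b :: L, b ≤ z := by
        intro z hz
        rcases List.mem_cons.mp hz with rfl | hz
        · exact le_rfl
        · have h := hQ a b z (((List.singleton_sublist.mpr hz).cons_cons b).cons_cons a)
          by_contra hc
          exact absurd h (not_le.mpr (max_lt hab (not_le.mp hc)))
      have := getLast_bound L b b hQ' hge
      rw [abs_of_nonpos (by linarith : a - b ≤ 0)]
      linarith

lemma cyc_le {L : List ℝ} {t : ℝ} (ht : ∀ z ∈ L, |z| ≤ t) (ht0 : 0 ≤ t)
    (hQ : ∀ A B : List ℝ, L = A ++ B → ∀ a b c d,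
      [a, b, c, d].Sublist (B ++ A) → min a c ≤ max b d) :
    cyc L ≤ 4 * t := by
  by_cases hL : L = []
  · subst hL
    simp [cyc, tv]
    linarith
  obtain ⟨m, hm, hmax⟩ := L.toFinset.exists_max_image id
    ⟨L.head hL, List.mem_toFinset.mpr (List.head_mem hL)⟩
  rw [List.mem_toFinset] at hm
  simp only [id] at hmax
  obtain ⟨A, B, hAB⟩ := List.append_of_mem hm
  have hmax' : ∀ z ∈ B ++ A, z ≤ m := fun z hz => hmax z (by
    rw [List.mem_toFinset, hAB]
    simp only [List.mem_append, List.mem_cons] at hz ⊢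
    tauto)
  have hQ' : ∀ u v w, [u, v, w].Sublist (m :: (B ++ A) ++ [m]) → v ≤ max u w := by
    intro u v w hs
    have hmem : ∀ z ∈ [u, v, w], z ≤ m := fun z hz => by
      have := hs.subset hz
      simp only [List.cons_append, List.mem_cons, List.mem_append, List.not_mem_nil,
        or_false] at this
      rcases this with rfl | h | rfl
      · exact le_rfl
      · exact hmax' z (List.mem_append.mpr h)
      · exact le_rfl
    by_contra hc
    rw [not_le, max_lt_iff] at hc
    have hu := hmem u (by simp)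
    have hv := hmem v (by simp)
    have hw := hmem w (by simp)
    have hu' : u ≠ m := fun e => by linarith
    have hw' : w ≠ m := fun e => by linarith
    obtain ⟨l₁, l₂, heq, h₁, h₂⟩ := List.sublist_append_iff.mp hs
    rcases List.sublist_singleton.mp h₂ with rfl | rfl
    · rw [List.append_nil] at heq
      subst heq
      have h₁' : [u, v, w].Sublist (B ++ A) := by
        cases h₁ with
        | cons _ h => exact h
        | cons_cons _ h => exact absurd rfl hu'
      have := hQ A (m :: B) hAB m u v w (h₁'.cons_cons m)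
      rw [min_eq_right hv] at this
      exact absurd this (not_le.mpr (max_lt hc.1 hc.2))
    · have := congrArg List.getLast? heq
      simp at this
      exact hw' this
  have h := getLast_bound ((B ++ A) ++ [m]) m (-t) hQ' (fun z hz => by
    have hz' : z ∈ L := by
      rw [hAB]
      simp only [List.mem_append, List.mem_cons, List.not_mem_nil, or_false] at hz ⊢
      tauto
    linarith [(abs_le.mp (ht z hz')).1])
  rw [List.getLast_cons (by simp), List.getLast_append_singleton] at h
  rw [hAB, cyc_rotate, List.cons_append, cyc, List.take_succ_cons, List.take_zero]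
  have := (abs_le.mp (ht m hm)).2
  simp only [List.cons_append] at h ⊢
  linarith

variable {ℓ : Sym2 V → ℝ}

lemma through (hℓ : ∀ e, 0 < ℓ e) {s t z : V} (P : G.Walk s t) (hz : z ∈ P.support) :
    gdist G ℓ s z + gdist G ℓ z t ≤ wlen ℓ P := by
  classical
  calc gdist G ℓ s z + gdist G ℓ z t
      ≤ wlen ℓ (P.takeUntil z hz) + wlen ℓ (P.dropUntil z hz) :=
        add_le_add (gdist_le hℓ _) (gdist_le hℓ _)
    _ = wlen ℓ P := by rw [← wlen_append, Walk.take_spec]

lemma exists_near (hℓ : ∀ e, 0 < ℓ e) {s t : V} (h : G.Reachable s t) {η : ℝ} (hη : 0 < η) :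
    ∃ P : G.Walk s t, wlen ℓ P < gdist G ℓ s t + η := by
  by_contra hc
  push Not at hc
  linarith [le_gdist h hc]

lemma min_le_max_of_cross (hℓ : ∀ e, 0 < ℓ e) {x y a b c d : V} (hxy : G.Reachable x y)
    (hxa : G.Reachable x a) (hxb : G.Reachable x b) (hxc : G.Reachable x c)
    (hxd : G.Reachable x d)
    (hcr : ∀ (p : G.Walk a c) (q : G.Walk b d), ∃ z, z ∈ p.support ∧ z ∈ q.support) :
    min (gdist G ℓ x a - gdist G ℓ y a) (gdist G ℓ x c - gdist G ℓ y c) ≤
      max (gdist G ℓ x b - gdist G ℓ y b) (gdist G ℓ x d - gdist G ℓ y d) := by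
  refine le_of_forall_pos_le_add fun η hη => ?_
  obtain ⟨Pa, hPa⟩ := exists_near hℓ (hxy.symm.trans hxa) (half_pos hη)
  obtain ⟨Pc, hPc⟩ := exists_near hℓ (hxy.symm.trans hxc) (half_pos hη)
  obtain ⟨Pb, hPb⟩ := exists_near hℓ hxb (half_pos hη)
  obtain ⟨Pd, hPd⟩ := exists_near hℓ hxd (half_pos hη)
  obtain ⟨z, hz₁, hz₂⟩ := hcr (Pa.reverse.append Pc) (Pb.reverse.append Pd)
  simp only [Walk.mem_support_append_iff, Walk.support_reverse, List.mem_reverse] at hz₁ hz₂
  have key : ∀ (s t : V) (Ps : G.Walk y s) (Pt : G.Walk x t), z ∈ Ps.support → z ∈ Pt.support →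
      wlen ℓ Ps < gdist G ℓ y s + η / 2 → wlen ℓ Pt < gdist G ℓ x t + η / 2 →
      gdist G ℓ x s - gdist G ℓ y s ≤ gdist G ℓ x t - gdist G ℓ y t + η := by
    classical
    intro s t Ps Pt hs ht h₁ h₂
    have e₁ := through hℓ Ps hs
    have e₂ := through hℓ Pt ht
    have hxz : G.Reachable x z := ⟨Pt.takeUntil z ht⟩
    have hyz : G.Reachable y z := ⟨Ps.takeUntil z hs⟩
    have e₃ := gdist_triangle hℓ hxz (show G.Reachable z s from ⟨Ps.dropUntil z hs⟩)
    have e₄ := gdist_triangle hℓ hyz (show G.Reachable z t from ⟨Pt.dropUntil z ht⟩)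
    linarith
  rcases hz₁ with h | h <;> rcases hz₂ with h' | h'
  · linarith [key a b Pa Pb h h' hPa hPb, min_le_left (gdist G ℓ x a - gdist G ℓ y a)
      (gdist G ℓ x c - gdist G ℓ y c), le_max_left (gdist G ℓ x b - gdist G ℓ y b)
      (gdist G ℓ x d - gdist G ℓ y d)]
  · linarith [key a d Pa Pd h h' hPa hPd, min_le_left (gdist G ℓ x a - gdist G ℓ y a)
      (gdist G ℓ x c - gdist G ℓ y c), le_max_right (gdist G ℓ x b - gdist G ℓ y b)
      (gdist G ℓ x d - gdist G ℓ y d)]
  · linarith [key c b Pc Pb h h' hPc hPb, min_le_right (gdist G ℓ x a - gdist G ℓ y a)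
      (gdist G ℓ x c - gdist G ℓ y c), le_max_left (gdist G ℓ x b - gdist G ℓ y b)
      (gdist G ℓ x d - gdist G ℓ y d)]
  · linarith [key c d Pc Pd h h' hPc hPd, min_le_right (gdist G ℓ x a - gdist G ℓ y a)
      (gdist G ℓ x c - gdist G ℓ y c), le_max_right (gdist G ℓ x b - gdist G ℓ y b)
      (gdist G ℓ x d - gdist G ℓ y d)]

lemma abs_gdist_sub_le (hℓ : ∀ e, 0 < ℓ e) {x y s : V} (hxy : G.Reachable x y)
    (hxs : G.Reachable x s) : |gdist G ℓ x s - gdist G ℓ y s| ≤ gdist G ℓ x y := by
  have := gdist_triangle hℓ hxy (hxy.symm.trans hxs)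
  have := gdist_triangle hℓ hxy.symm hxs
  have := gdist_comm hℓ (G := G) x y
  rw [abs_le]
  constructor <;> linarith

lemma tv_zip (u : V → ℝ) : ∀ M : List V,
    ((M.zip M.tail).map fun p => |u p.1 - u p.2|).sum = tv (M.map u)
  | [] => by simp [tv]
  | [_] => by simp [tv]
  | a :: b :: t => by
    have := tv_zip u (b :: t)
    simp only [List.tail_cons] at this
    simp [tv, this]

theorem exists_boundary_map [Fintype V] (hℓ : ∀ e, 0 < ℓ e) {L : List V} (hL : CrossOrder G L) :
    ∃ (n : ℕ) (φ : V → Fin n → ℝ),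
      (∀ a b, G.Adj a b → dist1 (φ a) (φ b) ≤ 1 * ℓ s(a, b)) ∧
      ∀ s ∈ L, ∀ t ∈ L, G.Reachable s t → gdist G ℓ s t ≤ dist1 (φ s) (φ t) := by
  classical
  haveI : Fintype G.ConnectedComponent := Fintype.ofFinite _
  set Lc : G.ConnectedComponent → List V := fun c =>
    L.filter fun s => decide (G.connectedComponentMk s = c) with hLc
  set M : G.ConnectedComponent → List V := fun c => Lc c ++ (Lc c).take 1 with hM
  set P : G.ConnectedComponent → List (V × V) := fun c => (M c).zip (M c).tail with hP
  set F : V → (Σ c, Fin (P c).length) → ℝ := fun x w =>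
    if G.connectedComponentMk x = w.1 then
      (gdist G ℓ x ((P w.1)[w.2]).1 - gdist G ℓ x ((P w.1)[w.2]).2) / 4 else 0 with hF
  obtain ⟨n, φ, hφ⟩ := exists_fin_coords F
  have hval : ∀ x y, G.Reachable x y → dist1 (φ x) (φ y) =
      cyc ((Lc (G.connectedComponentMk x)).map fun s => gdist G ℓ x s - gdist G ℓ y s) / 4 := by
    intro x y hxy
    set c := G.connectedComponentMk x with hc
    have hy : G.connectedComponentMk y = c := (ConnectedComponent.sound hxy).symm
    rw [hφ, Fintype.sum_sigma, Finset.sum_eq_single c]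
    · have h1 : ∀ i : Fin (P c).length, |F x ⟨c, i⟩ - F y ⟨c, i⟩| =
          (fun p : V × V => |(gdist G ℓ x p.1 - gdist G ℓ y p.1) -
            (gdist G ℓ x p.2 - gdist G ℓ y p.2)| / 4) (P c)[i] := by
        intro i
        simp only [hF, hy, ← hc, if_true]
        rw [← sub_div, abs_div, abs_of_pos (by norm_num : (0 : ℝ) < 4)]
        congr 2
        ring
      rw [Finset.sum_congr rfl fun i _ => h1 i]
      simp only [Fin.getElem_fin]
      rw [Fin.sum_univ_fun_getElem (P c)
        (fun p : V × V => |(gdist G ℓ x p.1 - gdist G ℓ y p.1) -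
          (gdist G ℓ x p.2 - gdist G ℓ y p.2)| / 4)]
      rw [cyc, ← List.map_take, ← List.map_append,
        ← tv_zip (fun s => gdist G ℓ x s - gdist G ℓ y s)]
      simp only [hP, hM, div_eq_mul_inv, List.sum_map_mul_right]
    · intro d _ hd
      refine Finset.sum_eq_zero fun i _ => ?_
      simp only [hF]
      rw [if_neg (Ne.symm hd), if_neg (fun e => hd (e.symm.trans hy)), sub_self, abs_zero]
    · simp
  refine ⟨n, φ, fun a b hab => ?_, fun s hs t ht hst => ?_⟩
  · rw [hval a b hab.reachable]
    have hreach : ∀ s ∈ Lc (G.connectedComponentMk a), G.Reachable a s := fun s hs => by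
      simp only [hLc, List.mem_filter, decide_eq_true_eq] at hs
      exact (ConnectedComponent.exact hs.2).symm
    have hd := gdist_adj hℓ hab
    have := cyc_le (L := (Lc (G.connectedComponentMk a)).map fun s =>
        gdist G ℓ a s - gdist G ℓ b s) (t := gdist G ℓ a b) ?_ (gdist_nonneg hℓ a b) ?_
    · linarith
    · intro z hz
      obtain ⟨s, hs, rfl⟩ := List.mem_map.mp hz
      exact abs_gdist_sub_le hℓ hab.reachable (hreach s hs)
    · intro A B hAB u₁ u₂ u₃ u₄ hsub
      obtain ⟨A', B', hsplit, rfl, rfl⟩ := List.map_eq_append_iff.mp hAB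
      rw [← List.map_append] at hsub
      obtain ⟨q, hq, hqe⟩ := List.sublist_map_iff.mp hsub
      have hcr : CrossOrder G (B' ++ A') :=
        CrossOrder.rotate (hsplit ▸ hL.sublist List.filter_sublist)
      have hlen := congrArg List.length hqe
      simp at hlen
      match q, hqe, hlen, hq with
      | [p₁, p₂, p₃, p₄], hqe, _, hq =>
        simp at hqe
        obtain ⟨rfl, rfl, rfl, rfl⟩ := hqe
        have hr : ∀ p ∈ [p₁, p₂, p₃, p₄], G.Reachable a p := fun p hp => hreach p (by
          have := hq.subset hp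
          rw [hsplit]
          simp only [List.mem_append] at this ⊢
          tauto)
        exact min_le_max_of_cross hℓ hab.reachable (hr _ (by simp)) (hr _ (by simp))
          (hr _ (by simp)) (hr _ (by simp)) (hcr _ _ _ _ hq)
  · rw [hval s t hst]
    set c := G.connectedComponentMk s with hc
    have hs' : s ∈ Lc c := by simp [hLc, hs, hc]
    have ht' : t ∈ Lc c := by
      simp only [hLc, List.mem_filter, decide_eq_true_eq]
      exact ⟨ht, (ConnectedComponent.sound hst).symm⟩
    have := cyc_ge (List.mem_map_of_mem (f := fun v => gdist G ℓ s v - gdist G ℓ t v) hs')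
      (List.mem_map_of_mem (f := fun v => gdist G ℓ s v - gdist G ℓ t v) ht')
    simp only [gdist_self hℓ, gdist_comm hℓ t s] at this
    have h2 := neg_le_abs (0 - gdist G ℓ s t - (gdist G ℓ s t - 0))
    linarith

end Vale.Agent.P235
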