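import Mathlib

/-!
Shortest-path metrics of graphs with edge lengths and their embeddings into finite-dimensional
`ℓ₁`.
-/

namespace Vale.Agent.P235

variable {V : Type} {G : SimpleGraph V}

/-- The total length of a walk. -/
noncomputable def wlen (ℓ : Sym2 V → ℝ) {x y : V} (p : G.Walk x y) : ℝ := (p.edges.map ℓ).sum

/-- The shortest-path distance (`0` if there is no walk). -/
noncomputable def gdist (G : SimpleGraph V) (ℓ : Sym2 V → ℝ) (x y : V) : ℝ :=
  sInf (Set.range fun p : G.Walk x y => wlen ℓ p)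

/-- The `ℓ₁` distance of two vectors. -/
noncomputable def dist1 {n : ℕ} (u v : Fin n → ℝ) : ℝ := ∑ i, |u i - v i|

/-- For all positive edge lengths the shortest-path metric (on each component) embeds into
finite-dimensional `ℓ₁` with distortion at most `C`. -/
def L1Bound (G : SimpleGraph V) (C : ℝ) : Prop :=
  ∀ ℓ : Sym2 V → ℝ, (∀ e, 0 < ℓ e) → ∃ (n : ℕ) (f : V → Fin n → ℝ),
    ∀ x y, G.Reachable x y →
      gdist G ℓ x y ≤ dist1 (f x) (f y) ∧ dist1 (f x) (f y) ≤ C * gdist G ℓ x y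

/-- The graph `G` with all edges at the vertices of `S` deleted. -/
def avoid (G : SimpleGraph V) (S : Finset V) : SimpleGraph V where
  Adj x y := G.Adj x y ∧ x ∉ S ∧ y ∉ S
  symm := ⟨fun _ _ h => ⟨h.1.symm, h.2.2, h.2.1⟩⟩
  loopless := ⟨fun x h => G.loopless.irrefl x h.1⟩

lemma avoid_le (G : SimpleGraph V) (S : Finset V) : avoid G S ≤ G := fun _ _ h => h.1

variable {ℓ : Sym2 V → ℝ}

@[simp] lemma wlen_nil {x : V} : wlen ℓ (SimpleGraph.Walk.nil : G.Walk x x) = 0 := by simp [wlen]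

@[simp] lemma wlen_cons {x y z : V} (h : G.Adj x y) (p : G.Walk y z) :
    wlen ℓ (SimpleGraph.Walk.cons h p) = ℓ s(x, y) + wlen ℓ p := by
  simp [wlen]

lemma wlen_nonneg (hℓ : ∀ e, 0 < ℓ e) {x y : V} (p : G.Walk x y) : 0 ≤ wlen ℓ p :=
  List.sum_nonneg fun a ha => by
    obtain ⟨e, -, rfl⟩ := List.mem_map.mp ha
    exact (hℓ e).le

lemma gdist_le (hℓ : ∀ e, 0 < ℓ e) {x y : V} (p : G.Walk x y) : gdist G ℓ x y ≤ wlen ℓ p :=
  csInf_le ⟨0, by rintro _ ⟨q, rfl⟩; exact wlen_nonneg hℓ q⟩ ⟨p, rfl⟩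

lemma le_gdist {x y : V} (h : G.Reachable x y) {a : ℝ} (ha : ∀ p : G.Walk x y, a ≤ wlen ℓ p) :
    a ≤ gdist G ℓ x y :=
  le_csInf (by obtain ⟨p⟩ := h; exact ⟨_, p, rfl⟩) (by rintro _ ⟨p, rfl⟩; exact ha p)

lemma gdist_nonneg (hℓ : ∀ e, 0 < ℓ e) (x y : V) : 0 ≤ gdist G ℓ x y :=
  Real.sInf_nonneg (by rintro _ ⟨p, rfl⟩; exact wlen_nonneg hℓ p)

lemma gdist_self (hℓ : ∀ e, 0 < ℓ e) (x : V) : gdist G ℓ x x = 0 :=
  le_antisymm ((gdist_le hℓ (SimpleGraph.Walk.nil : G.Walk x x)).trans (by simp))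
    (gdist_nonneg hℓ x x)

lemma wlen_reverse {x y : V} (p : G.Walk x y) : wlen ℓ p.reverse = wlen ℓ p := by
  simp [wlen, List.map_reverse, List.sum_reverse]

lemma wlen_append {x y z : V} (p : G.Walk x y) (q : G.Walk y z) :
    wlen ℓ (p.append q) = wlen ℓ p + wlen ℓ q := by
  simp [wlen]

lemma gdist_comm (hℓ : ∀ e, 0 < ℓ e) (x y : V) : gdist G ℓ x y = gdist G ℓ y x := by
  by_cases h : G.Reachable x y
  · exact le_antisymm
      (le_gdist h.symm fun p => (gdist_le hℓ p.reverse).trans (wlen_reverse p).le)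
      (le_gdist h fun p => (gdist_le hℓ p.reverse).trans (wlen_reverse p).le)
  · have h' : ¬ G.Reachable y x := fun e => h e.symm
    simp [gdist, Set.range_eq_empty_iff.mpr ⟨fun p => h ⟨p⟩⟩,
      Set.range_eq_empty_iff.mpr ⟨fun p => h' ⟨p⟩⟩]

lemma gdist_triangle (hℓ : ∀ e, 0 < ℓ e) {x y z : V} (hxy : G.Reachable x y)
    (hyz : G.Reachable y z) : gdist G ℓ x z ≤ gdist G ℓ x y + gdist G ℓ y z := by
  rw [← sub_le_iff_le_add]
  refine le_gdist hxy fun p => ?_
  rw [sub_le_comm]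
  refine le_gdist hyz fun q => ?_
  have := gdist_le hℓ (p.append q)
  rw [wlen_append] at this
  linarith

lemma gdist_adj (hℓ : ∀ e, 0 < ℓ e) {x y : V} (h : G.Adj x y) :
    gdist G ℓ x y ≤ ℓ s(x, y) :=
  (gdist_le hℓ (SimpleGraph.Walk.cons h SimpleGraph.Walk.nil)).trans (by simp)

lemma gdist_pos [Finite V] (hℓ : ∀ e, 0 < ℓ e) {x y : V} (h : G.Reachable x y) (hne : x ≠ y) :
    0 < gdist G ℓ x y := by
  haveI : Nonempty (Sym2 V) := ⟨s(x, x)⟩
  obtain ⟨e, he⟩ := Finite.exists_min ℓ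
  refine (hℓ e).trans_le (le_gdist h fun p => ?_)
  cases p with
  | nil => exact absurd rfl hne
  | @cons _ v _ h q =>
    rw [wlen_cons]
    linarith [he s(x, v), wlen_nonneg hℓ q]

lemma gdist_mono {H : SimpleGraph V} (hle : H ≤ G) (hℓ : ∀ e, 0 < ℓ e) {x y : V}
    (h : H.Reachable x y) : gdist G ℓ x y ≤ gdist H ℓ x y :=
  le_gdist h fun p => (gdist_le hℓ (p.mapLe hle)).trans (le_of_eq (by simp [wlen]))

/-- A map that is Lipschitz on every edge is Lipschitz for the shortest-path metric. -/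
lemma dist1_le_of_adj {n : ℕ} (f : V → Fin n → ℝ) {K : ℝ}
    (hK : ∀ a b, G.Adj a b → dist1 (f a) (f b) ≤ K * ℓ s(a, b)) {x y : V}
    (p : G.Walk x y) : dist1 (f x) (f y) ≤ K * wlen ℓ p := by
  induction p with
  | nil => simp [dist1]
  | @cons u v w h q ih =>
    rw [wlen_cons, mul_add]
    refine le_trans ?_ (add_le_add (hK u v h) ih)
    simp only [dist1, ← Finset.sum_add_distrib]
    exact Finset.sum_le_sum fun i _ => abs_sub_le _ _ _

/-- Reindexing a finite family of coordinates by an initial segment of the naturals. -/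
lemma exists_fin_coords {ι : Type} [Fintype ι] (F : V → ι → ℝ) :
    ∃ (n : ℕ) (f : V → Fin n → ℝ), ∀ x y, dist1 (f x) (f y) = ∑ i, |F x i - F y i| :=
  ⟨Fintype.card ι, fun x i => F x ((Fintype.equivFin ι).symm i), fun x y =>
    (Fintype.equivFin ι).symm.sum_comp fun i => |F x i - F y i|⟩

end Vale.Agent.P235
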