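import Vale.Agent.P235.Defs

/-!
Acyclic graphs embed isometrically into `ℓ₁`: one coordinate for each edge.
-/

namespace Vale.Agent.P235

open SimpleGraph Finset

variable {V : Type} {G : SimpleGraph V}

lemma split_at_edge {x y : V} (p : G.Walk x y) (hp : p.IsPath) {e : Sym2 V}
    (he : e ∈ p.edges) :
    ∃ u v, e = s(u, v) ∧ G.Adj u v ∧ (G.deleteEdges {e}).Reachable x u ∧
      (G.deleteEdges {e}).Reachable v y := by
  induction p with
  | nil => simp at he
  | @cons a b c h q ih =>
    have hn : s(a, b) ∉ q.edges := (List.nodup_cons.mp hp.isTrail.edges_nodup).1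
    rcases List.mem_cons.mp he with rfl | he'
    · exact ⟨a, b, rfl, h, Reachable.refl _, ⟨q.toDeleteEdge _ hn⟩⟩
    · obtain ⟨u, v, huv, hadj, h₁, h₂⟩ := ih hp.of_cons he'
      refine ⟨u, v, huv, hadj, Reachable.trans ?_ h₁, h₂⟩
      refine (Adj.reachable ?_)
      simp only [deleteEdges_adj, Set.mem_singleton_iff]
      exact ⟨h, fun e' => hn (e' ▸ he')⟩

theorem l1Bound_acyclic [Fintype V] (hG : G.IsAcyclic) : L1Bound G 1 := by
  classical
  intro ℓ hℓ
  set F : V → Sym2 V → ℝ := fun x e =>
    if (G.deleteEdges {e}).Reachable x e.out.1 then ℓ e else 0 with hF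
  obtain ⟨n, f, hf⟩ := exists_fin_coords F
  have hadj : ∀ a b, G.Adj a b → dist1 (f a) (f b) ≤ 1 * ℓ s(a, b) := by
    intro a b hab
    rw [hf, one_mul, Finset.sum_eq_single s(a, b)]
    · have := hℓ s(a, b)
      simp only [hF]
      split_ifs <;> simp [abs_of_pos this, this.le]
    · intro e _ hne
      have h : (G.deleteEdges {e}).Reachable a b := Adj.reachable <| by
        simp only [deleteEdges_adj, Set.mem_singleton_iff]
        exact ⟨hab, fun e' => hne e'.symm⟩
      have hiff : (G.deleteEdges {e}).Reachable a e.out.1 ↔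
          (G.deleteEdges {e}).Reachable b e.out.1 :=
        ⟨fun r => h.symm.trans r, fun r => h.trans r⟩
      simp only [hF, hiff, sub_self, abs_zero]
    · simp
  refine ⟨n, f, fun x y hxy => ⟨?_, ?_⟩⟩
  · obtain ⟨p, hp⟩ := hxy.exists_isPath
    refine (gdist_le hℓ p).trans ?_
    rw [hf, wlen, ← List.sum_toFinset ℓ hp.isTrail.edges_nodup]
    refine le_trans (Finset.sum_le_sum fun e he => ?_)
      (Finset.sum_le_univ_sum_of_nonneg fun _ => abs_nonneg _)
    obtain ⟨u, v, huv, hadj', hxu, hvy⟩ := split_at_edge p hp (List.mem_toFinset.mp he)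
    have hbr : ¬ (G.deleteEdges {e}).Reachable u v := by
      rw [huv]
      exact isBridge_iff.mp (isAcyclic_iff_forall_adj_isBridge.mp hG hadj')
    have hout : e.out.1 ∈ s(u, v) := by
      have := e.out_fst_mem
      rwa [← huv]
    have hpos := hℓ e
    simp only [hF]
    rcases Sym2.mem_iff.mp hout with ha | ha <;> rw [ha]
    · rw [if_pos hxu, if_neg fun r => hbr (r.symm.trans hvy.symm), sub_zero, abs_of_pos hpos]
    · rw [if_pos hvy.symm, if_neg fun r => hbr (hxu.symm.trans r), zero_sub, abs_neg,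
        abs_of_pos hpos]
  · rw [one_mul]
    exact le_gdist hxy fun p => (dist1_le_of_adj f hadj p).trans (one_mul _).le

end Vale.Agent.P235
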