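import Vale.Agent.P235.MultiPeel
import Vale.Agent.P235.Cyclic
import Vale.Agent.P235.Forest

/-!
Repeated peeling: `k` rounds cost `O(k)`.
-/

namespace Vale.Agent.P235

open Finset

variable {V : Type} [Fintype V] {G : SimpleGraph V}

lemma L1Bound.mono {C C' : ℝ} (h : L1Bound G C) (hCC : C ≤ C') : L1Bound G C' := by
  intro ℓ hℓ
  obtain ⟨n, f, hf⟩ := h ℓ hℓ
  exact ⟨n, f, fun x y hxy => ⟨(hf x y hxy).1,
    (hf x y hxy).2.trans (mul_le_mul_of_nonneg_right hCC (gdist_nonneg hℓ x y))⟩⟩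

lemma hasExt_crossOrder {L : List V} {S : Finset V} (hS : ∀ x, x ∈ S ↔ x ∈ L)
    (hL : CrossOrder G L) : HasExt G S 1 := by
  intro ℓ hℓ
  obtain ⟨n, φ, h₁, h₂⟩ := exists_boundary_map hℓ hL
  exact ⟨n, φ, h₁, fun s hs t ht hst => h₂ s ((hS s).mp hs) t ((hS t).mp ht) hst⟩

lemma hasExt_card (G : SimpleGraph V) (S : Finset V) : HasExt G S S.card := by
  classical
  intro ℓ hℓ
  obtain ⟨n, φ, hφ⟩ := exists_fin_coords fun x (s : {s // s ∈ S}) =>
    if G.Reachable x s.1 then gdist G ℓ x s.1 else 0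
  refine ⟨n, φ, fun a b hab => ?_, fun s hs t ht hst => ?_⟩
  · rw [hφ]
    refine le_trans (Finset.sum_le_sum (g := fun _ => ℓ s(a, b)) fun s _ => ?_) (by simp)
    by_cases h : G.Reachable a s.1
    · rw [if_pos h, if_pos (hab.reachable.symm.trans h)]
      exact (abs_gdist_sub_le hℓ hab.reachable h).trans (gdist_adj hℓ hab)
    · rw [if_neg h, if_neg fun h' => h (hab.reachable.trans h'), sub_zero, abs_zero]
      exact (hℓ _).le
  · rw [hφ]
    refine le_trans ?_ (Finset.single_le_sum (fun i _ => abs_nonneg _)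
      (mem_univ (⟨t, ht⟩ : {s // s ∈ S})))
    rw [if_pos hst, if_pos .rfl, gdist_self hℓ, sub_zero]
    exact le_abs_self _

theorem l1Bound_delete (S : Finset V) {C : ℝ} (hC : 0 ≤ C) (h : L1Bound (avoid G S) C) :
    L1Bound G (2 * C + 1032 * S.card + 1028) := by
  have hk : (0 : ℝ) ≤ S.card := Nat.cast_nonneg _
  refine (l1Bound_peel hk (A := 8 * (1 + S.card)) (by positivity) hC (hasExt_card G S) h).mono
    (le_of_eq ?_)
  rw [div_self (by positivity)]
  ring

omit [Fintype V] in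
lemma crossOrder_of_not_reachable {L : List V} (hL : L.Pairwise fun a b => ¬ G.Reachable a b) :
    CrossOrder G L := by
  intro a b c d h p _
  have := hL.sublist h
  simp only [List.pairwise_cons, List.mem_cons] at this
  exact absurd ⟨p⟩ (this.1 c (Or.inr (Or.inl rfl)))

lemma avoid_empty (G : SimpleGraph V) : avoid G ∅ = G := by
  ext x y
  simp [avoid]

lemma avoid_avoid [DecidableEq V] (G : SimpleGraph V) (W S : Finset V) :
    avoid (avoid G W) S = avoid G (W ∪ S) := by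
  ext x y
  simp only [avoid, mem_union, not_or]
  tauto

/-- `k` layers, each with an extension map in what is left, cost `O(K k)` together. -/
theorem l1Bound_layers (U : ℕ → Finset V) (k : ℕ) (hU0 : U 0 = ∅) {K C : ℝ} (hK : 0 ≤ K)
    (hC : 0 ≤ C)
    (hext : ∀ j < k, ∃ S : Finset V, (∀ x, x ∈ U (j + 1) → x ∉ U j → x ∈ S) ∧
      HasExt (avoid G (U j)) S K)
    (h : L1Bound (avoid G (U k)) C) : L1Bound G (9 * C + (1 + K) * (650 * k + 650)) := by
  intro ℓ hℓ
  obtain ⟨n, f, hf⟩ := h ℓ hℓ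
  refine l1At_multi hℓ U k hU0 hK hC (fun j hj => ?_) f hf
  obtain ⟨S, hS, hE⟩ := hext j hj
  obtain ⟨m, φ, h₁, h₂⟩ := hE ℓ hℓ
  exact ⟨m, φ, h₁, fun s hs hs' t ht ht' hr => h₂ s (hS s hs hs') t (hS t ht ht') hr⟩

lemma exists_layers [DecidableEq V] : ∀ (k : ℕ) (W : Finset V), Peel k (avoid G W) →
    ∃ U : ℕ → Finset V, U 0 = W ∧ (avoid G (U k)).IsAcyclic ∧
      ∀ j < k, ∃ S : Finset V, (∀ x, x ∈ U (j + 1) → x ∉ U j → x ∈ S) ∧
        HasExt (avoid G (U j)) S 1
  | 0, W, h => ⟨fun _ => W, rfl, h, fun j hj => absurd hj (Nat.not_lt_zero j)⟩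
  | k + 1, W, ⟨L, S, hS, hL, hk⟩ => by
    rw [avoid_avoid] at hk
    obtain ⟨U, hU0, hUk, hU⟩ := exists_layers k (W ∪ S) hk
    refine ⟨fun | 0 => W | j + 1 => U j, rfl, hUk, fun j hj => ?_⟩
    cases j with
    | zero =>
      refine ⟨S, fun x hx hx' => ?_, hasExt_crossOrder hS hL⟩
      simp only [hU0, mem_union] at hx
      exact hx.resolve_left hx'
    | succ j => exact hU j (by omega)

/-- `k` rounds cost `O(k)`. -/
theorem l1Bound_rounds (k : ℕ) (hG : Peel k G) : L1Bound G (1300 * (k : ℝ) + 1309) := by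
  classical
  obtain ⟨U, hU0, hUk, hU⟩ := exists_layers (G := G) k ∅ (by rwa [avoid_empty])
  exact (l1Bound_layers U k hU0 zero_le_one zero_le_one hU (l1Bound_acyclic hUk)).mono
    (le_of_eq (by ring))

end Vale.Agent.P235
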