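import Vale.Agent.P235.DisjointCycles
import Vale.Agent.P235.Rounds

/-!
Graphs without `k + 1` pairwise vertex-disjoint cycles have distortion `O(k)`.
-/

namespace Vale.Agent.P235

open SimpleGraph Finset

variable {V : Type}

lemma not_mem_support_of_avoid {G : SimpleGraph V} {S : Finset V} {v : V}
    (w : (avoid G S).Walk v v) (hw : w.IsCycle) {z : V} (hz : z ∈ w.support) : z ∉ S := by
  classical
  have h := (w.rotate z hz).adj_snd (hw.rotate hz).not_nil
  exact h.2.1

lemma disjCycles_step [Fintype V] {G : SimpleGraph V} {S : Finset V} {j : ℕ}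
    (hcyc : ∀ (x : V) (w : G.Walk x x), w.IsCycle →
      ∃ (v : V) (C : G.Walk v v), C.IsCycle ∧ ∀ z ∈ C.support, z ∈ S)
    (h : ¬ DisjCycles G (j + 1 + 1)) : ¬ DisjCycles (avoid G S) (j + 1) := by
  rintro ⟨c, hc, hd⟩
  apply h
  obtain ⟨v₀, C₀, hC₀, hC₀S⟩ :=
    hcyc (c 0).1 ((c 0).2.mapLe (avoid_le G S)) ((hc 0).mapLe _)
  refine ⟨Fin.cases (motive := fun _ => Σ v : V, G.Walk v v) ⟨v₀, C₀⟩
    fun i => ⟨(c i).1, (c i).2.mapLe (avoid_le G S)⟩, ?_, ?_⟩
  · intro i
    induction i using Fin.cases with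
    | zero => exact hC₀
    | succ i => exact (hc i).mapLe _
  · intro i k hik z hz
    induction i using Fin.cases with
    | zero =>
      induction k using Fin.cases with
      | zero => exact absurd rfl hik
      | succ k =>
        intro hz'
        simp only [Fin.cases_succ, Walk.support_mapLe_eq_support] at hz'
        exact not_mem_support_of_avoid _ (hc k) hz' (hC₀S z hz)
    | succ i =>
      simp only [Fin.cases_succ, Walk.support_mapLe_eq_support] at hz
      induction k using Fin.cases with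
      | zero => exact fun hz' => not_mem_support_of_avoid _ (hc i) hz (hC₀S z hz')
      | succ k =>
        simp only [Fin.cases_succ, Walk.support_mapLe_eq_support]
        exact hd i k (fun e => hik (e ▸ rfl)) z hz

lemma exists_cycle_layers [Fintype V] [DecidableEq V] {G : SimpleGraph V} {ℓ : Sym2 V → ℝ}
    (hℓ : ∀ e, 0 < ℓ e) :
    ∀ (j : ℕ) (W : Finset V), ¬ DisjCycles (avoid G W) (j + 1) →
      ∃ U : ℕ → Finset V, U 0 = W ∧ (avoid G (U j)).IsAcyclic ∧
        ∀ i < j, ∃ (m : ℕ) (φ : V → Fin m → ℝ),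
          (∀ a b, (avoid G (U i)).Adj a b → dist1 (φ a) (φ b) ≤ 5 * ℓ s(a, b)) ∧
          ∀ s ∈ U (i + 1), s ∉ U i → ∀ t ∈ U (i + 1), t ∉ U i →
            (avoid G (U i)).Reachable s t →
            gdist (avoid G (U i)) ℓ s t ≤ dist1 (φ s) (φ t)
  | 0, W, h => ⟨fun _ => W, rfl, fun v w hw => h ⟨fun _ => ⟨v, w⟩, fun _ => hw,
      fun i k hik => absurd (Subsingleton.elim (α := Fin 1) i k) hik⟩,
      fun i hi => absurd hi (Nat.not_lt_zero i)⟩
  | j + 1, W, h => by
    obtain ⟨S, m, φ, hφK, hφS, hcyc⟩ := exists_peel_set (G := avoid G W) hℓ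
    have hH := disjCycles_step hcyc h
    rw [avoid_avoid] at hH
    obtain ⟨U, hU0, hUj, hU⟩ := exists_cycle_layers hℓ j (W ∪ S) hH
    refine ⟨fun | 0 => W | i + 1 => U i, rfl, hUj, fun i hi => ?_⟩
    cases i with
    | zero =>
      refine ⟨m, φ, hφK, fun s hs hs' t ht ht' hr => ?_⟩
      simp only [hU0, mem_union] at hs ht
      exact hφS s (hs.resolve_left hs') t (ht.resolve_left ht') hr
    | succ i => exact hU i (by omega)

theorem l1Bound_disjCycles [Fintype V] (k : ℕ) (G : SimpleGraph V)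
    (h : ¬ DisjCycles G (k + 1)) : L1Bound G (3900 * (k : ℝ) + 3909) := by
  classical
  intro ℓ hℓ
  obtain ⟨U, hU0, hUk, hU⟩ := exists_cycle_layers (G := G) hℓ k ∅ (by rwa [avoid_empty])
  obtain ⟨n, f, hf⟩ := l1Bound_acyclic hUk ℓ hℓ
  obtain ⟨N, g, hg⟩ := l1At_multi hℓ U k hU0 (show (0 : ℝ) ≤ 5 by norm_num) zero_le_one hU f hf
  refine ⟨N, g, fun x y hxy => ⟨(hg x y hxy).1, (hg x y hxy).2.trans (le_of_eq ?_)⟩⟩
  ring

end Vale.Agent.P235
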