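import Vale.Agent.P235.Peel
import Vale.Agent.P235.Forest
import Vale.Agent.P235.Classes

/-!
Graphs without `k + 1` pairwise vertex-disjoint cycles: peel, in every component with a cycle,
two shortest paths from one root that close a cycle.
-/

namespace Vale.Agent.P235

open SimpleGraph Finset

variable {V : Type}

variable {G : SimpleGraph V} {ℓ : Sym2 V → ℝ}

/-- A walk from `v` to the root whose vertices behave as on a shortest path. -/
def Geo (ℓ : Sym2 V → ℝ) (a : V) {v : V} (P : G.Walk v a) : Prop :=
  (∀ z ∈ P.support, gdist G ℓ a z < gdist G ℓ a v ∨ z = v) ∧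
    ∀ s ∈ P.support, ∀ t ∈ P.support,
      gdist G ℓ s t ≤ |gdist G ℓ a s - gdist G ℓ a t|

lemma Geo.le {a v : V} {P : G.Walk v a} (h : Geo ℓ a P) {z : V} (hz : z ∈ P.support) :
    gdist G ℓ a z ≤ gdist G ℓ a v := by
  rcases h.1 z hz with h | rfl
  exacts [h.le, le_rfl]

lemma exists_geo [Fintype V] (hℓ : ∀ e, 0 < ℓ e) (a v : V) (h : G.Reachable v a) :
    (∃ P : G.Walk v a, Geo ℓ a P) ∧ (v ≠ a → ∃ (p : V) (hvp : G.Adj v p) (P : G.Walk p a),
      Geo ℓ a (Walk.cons hvp P) ∧ Geo ℓ a P ∧ gdist G ℓ a p < gdist G ℓ a v) := by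
  classical
  induction hn : (univ.filter fun w => gdist G ℓ a w < gdist G ℓ a v).card
    using Nat.strong_induction_on generalizing v with
  | _ n ih =>
    by_cases hva : v = a
    · subst hva
      refine ⟨⟨Walk.nil, fun z hz => Or.inr (by simpa using hz), ?_⟩, fun hne => absurd rfl hne⟩
      intro s hs t ht
      simp only [Walk.support_nil, List.mem_singleton] at hs ht
      subst hs; subst ht
      rw [gdist_self hℓ]
      exact abs_nonneg _
    set N := univ.filter fun w => G.Adj v w with hN
    have hNe : N.Nonempty := by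
      obtain ⟨p⟩ := h
      cases p with
      | nil => exact absurd rfl hva
      | @cons _ w _ hw _ => exact ⟨w, by simp [hN, hw]⟩
    obtain ⟨p, hp, hmin⟩ := N.exists_min_image (fun w => ℓ s(v, w) + gdist G ℓ w a) hNe
    have hvp : G.Adj v p := by simpa [hN] using hp
    have hle : ℓ s(v, p) + gdist G ℓ p a ≤ gdist G ℓ v a := by
      refine le_gdist h fun q => ?_
      cases q with
      | nil => exact absurd rfl hva
      | @cons _ w _ hw q =>
        rw [wlen_cons]
        have := hmin w (by simp [hN, hw])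
        linarith [gdist_le hℓ q]
    rw [gdist_comm hℓ p a, gdist_comm hℓ v a] at hle
    have hlt : gdist G ℓ a p < gdist G ℓ a v := by linarith [hℓ s(v, p)]
    have hcard : (univ.filter fun w => gdist G ℓ a w < gdist G ℓ a p).card < n := by
      rw [← hn]
      refine Finset.card_lt_card ⟨fun w hw => ?_, fun hsub => ?_⟩
      · simp only [mem_filter, mem_univ, true_and] at hw ⊢
        linarith
      · have := hsub (show p ∈ univ.filter fun w => gdist G ℓ a w < gdist G ℓ a v by simp [hlt])
        simp at this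
    obtain ⟨P, hP⟩ := (ih _ hcard p (hvp.symm.reachable.trans h) rfl).1
    have key : ∀ s ∈ P.support,
        gdist G ℓ s v ≤ gdist G ℓ a v - gdist G ℓ a s := by
      intro s hs
      have h1 := hP.2 s hs p P.start_mem_support
      have h2 := hP.le hs
      rw [abs_of_nonpos (by linarith)] at h1
      have hsp : G.Reachable s p := ⟨(P.takeUntil s hs).reverse⟩
      have h3 := gdist_triangle hℓ hsp hvp.symm.reachable
      have h4 := gdist_adj hℓ hvp.symm
      rw [Sym2.eq_swap] at h4
      linarith
    have hG : Geo ℓ a (Walk.cons hvp P) := by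
      refine ⟨fun z hz => ?_, ?_⟩
      · rcases List.mem_cons.mp (by simpa using hz : z ∈ v :: P.support) with rfl | hz
        · exact Or.inr rfl
        · exact Or.inl ((hP.le hz).trans_lt hlt)
      · intro s hs t ht
        simp only [Walk.support_cons, List.mem_cons] at hs ht
        rcases hs with hs | hs <;> rcases ht with ht | ht
        · rw [hs, ht, gdist_self hℓ]; exact abs_nonneg _
        · rw [hs, gdist_comm hℓ]
          exact (key t ht).trans (le_abs_self _)
        · rw [ht, abs_sub_comm]
          exact (key s hs).trans (le_abs_self _)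
        · exact hP.2 s hs t ht
    exact ⟨⟨_, hG⟩, fun _ => ⟨p, hvp, P, hG, hP, hlt⟩⟩

/-- In a component with a cycle, two geodesics from a root carry a cycle. -/
lemma exists_two_geo [Fintype V] (hℓ : ∀ e, 0 < ℓ e) {v₀ : V} (w : G.Walk v₀ v₀)
    (hw : w.IsCycle) :
    ∃ (u v : V) (P : G.Walk u v₀) (Q : G.Walk v v₀), Geo ℓ v₀ P ∧ Geo ℓ v₀ Q ∧
      ∃ C : G.Walk v v, C.IsCycle ∧ ∀ z ∈ C.support, z ∈ P.support ∨ z ∈ Q.support := by
  classical
  obtain ⟨v, hv, hmax⟩ := w.support.toFinset.exists_max_image (fun z => gdist G ℓ v₀ z)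
    ⟨v₀, List.mem_toFinset.mpr w.start_mem_support⟩
  rw [List.mem_toFinset] at hv
  have hmax' : ∀ z ∈ w.support, gdist G ℓ v₀ z ≤ gdist G ℓ v₀ v :=
    fun z hz => hmax z (List.mem_toFinset.mpr hz)
  set c := w.rotate v hv with hc
  have hcc : c.IsCycle := hw.rotate hv
  have hreach : G.Reachable v v₀ := ⟨(w.takeUntil v hv).reverse⟩
  have hnil : ¬ c.Nil := hcc.not_nil
  have hmem : ∀ z ∈ c.support, gdist G ℓ v₀ z ≤ gdist G ℓ v₀ v := fun z hz =>
    hmax' z ((w.mem_support_rotate_iff v hv).mp hz)
  have hne : c.snd ≠ c.penultimate := hcc.snd_ne_penultimate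
  have hsd : c.snd ∈ c.support := c.getVert_mem_support 1
  have hpn : c.penultimate ∈ c.support := c.getVert_mem_support _
  have hva : v ≠ v₀ := by
    rintro rfl
    have h1 := hmem c.snd hsd
    rw [gdist_self hℓ] at h1
    have h2 : 0 < gdist G ℓ v c.snd :=
      gdist_pos hℓ (c.adj_snd hnil).reachable (c.adj_snd hnil).ne
    linarith
  obtain ⟨p, hvp, Q, hQ, hQp, hlt⟩ := (exists_geo hℓ v₀ v hreach).2 hva
  obtain ⟨u, hadj, hu, hup⟩ : ∃ u, G.Adj v u ∧ gdist G ℓ v₀ u ≤ gdist G ℓ v₀ v ∧ u ≠ p := by
    by_cases h : c.snd = p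
    · exact ⟨c.penultimate, (c.adj_penultimate hnil).symm, hmem _ hpn, fun e => hne (h.trans e.symm)⟩
    · exact ⟨c.snd, c.adj_snd hnil, hmem _ hsd, h⟩
  obtain ⟨P, hP⟩ := (exists_geo hℓ v₀ u (hadj.symm.reachable.trans hreach)).1
  have hvP : v ∉ P.support := by
    intro h
    rcases hP.1 v h with h' | h'
    · linarith
    · exact hadj.ne h'
  set q : G.Walk u v := ((P.append Q.reverse).append (Walk.cons hvp.symm Walk.nil)).bypass with hq
  have hnotP : s(v, u) ∉ P.edges := fun h => hvP (P.fst_mem_support_of_mem_edges h)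
  have hvQ : v ∉ Q.support := fun h => by linarith [hQp.le h]
  have hnotQ : s(v, u) ∉ Q.edges := fun h => hvQ (Q.fst_mem_support_of_mem_edges h)
  have hqe : s(v, u) ∉ q.edges := by
    intro h
    have := Walk.edges_bypass_subset_edges _ h
    simp only [Walk.edges_append, Walk.edges_reverse, Walk.edges_cons, Walk.edges_nil,
      List.mem_append, List.mem_reverse, List.mem_singleton] at this
    rcases this with (h | h) | h
    · exact hnotP h
    · exact hnotQ h
    · rcases Sym2.eq_iff.mp h with ⟨h₁, -⟩ | ⟨-, h₂⟩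
      · exact hvp.ne h₁
      · exact hup h₂
  refine ⟨u, v, P, Walk.cons hvp Q, hP, hQ, Walk.cons hadj q,
    (Walk.cons_isCycle_iff q hadj).mpr ⟨Walk.bypass_isPath _, hqe⟩, fun z hz => ?_⟩
  simp only [Walk.support_cons, List.mem_cons] at hz ⊢
  rcases hz with rfl | hz
  · exact Or.inr (Or.inl rfl)
  have := Walk.support_bypass_subset_support _ hz
  simp only [Walk.mem_support_append_iff, Walk.support_reverse, List.mem_reverse,
    Walk.support_cons, Walk.support_nil, List.mem_cons, List.not_mem_nil, or_false] at this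
  rcases this with (h | h) | h | h
  · exact Or.inl h
  · exact Or.inr (Or.inr h)
  · exact Or.inr (Or.inr (h ▸ Q.start_mem_support))
  · exact Or.inr (Or.inl h)

/-- A cycle inside two geodesics, for each component; the data used by the peeling step. -/
lemma exists_peel_set [Fintype V] (hℓ : ∀ e, 0 < ℓ e) :
    ∃ (S : Finset V) (m : ℕ) (φ : V → Fin m → ℝ),
      (∀ a b, G.Adj a b → dist1 (φ a) (φ b) ≤ 5 * ℓ s(a, b)) ∧
      (∀ s ∈ S, ∀ t ∈ S, G.Reachable s t → gdist G ℓ s t ≤ dist1 (φ s) (φ t)) ∧
      (∀ (x : V) (w : G.Walk x x), w.IsCycle →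
        ∃ (v : V) (C : G.Walk v v), C.IsCycle ∧ ∀ z ∈ C.support, z ∈ S) := by
  classical
  haveI : Fintype G.ConnectedComponent := Fintype.ofFinite _
  set CC := {c : G.ConnectedComponent //
    ∃ (x : V) (w : G.Walk x x), w.IsCycle ∧ G.connectedComponentMk x = c} with hCC
  choose x w hw hx using fun c : CC => c.2
  choose u v P Q hP hQ C hC hCs using fun c : CC => exists_two_geo hℓ (w c) (hw c)
  set part : CC → Finset V := fun c => (P c).support.toFinset ∪ (Q c).support.toFinset with hpart
  have hreach : ∀ c s, s ∈ part c → G.Reachable (x c) s := by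
    intro c s hs
    simp only [hpart, mem_union, List.mem_toFinset] at hs
    rcases hs with h | h
    · exact ⟨((P c).dropUntil s h).reverse⟩
    · exact ⟨((Q c).dropUntil s h).reverse⟩
  set F : V → CC × Fin 3 → ℝ := fun y w =>
    if G.connectedComponentMk y = w.1.1 then
      ![gdist G ℓ (x w.1) y,
        2 * (P w.1).support.toFinset.inf' ⟨u w.1, by simp⟩ (fun z => gdist G ℓ y z),
        2 * (Q w.1).support.toFinset.inf' ⟨v w.1, by simp⟩ (fun z => gdist G ℓ y z)] w.2
    else 0 with hF
  obtain ⟨m, φ, hφ⟩ := exists_fin_coords F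
  refine ⟨univ.biUnion part, m, φ, fun a b hab => ?_, ?_, fun y wy hy => ?_⟩
  · rw [hφ, Fintype.sum_prod_type]
    by_cases h : ∃ c : CC, G.connectedComponentMk a = c.1
    · obtain ⟨c, hc⟩ := h
      have hcb : G.connectedComponentMk b = c.1 :=
        (ConnectedComponent.sound hab.reachable).symm.trans hc
      have hca : G.Reachable (x c) a := ConnectedComponent.exact ((hx c).trans hc.symm)
      rw [Finset.sum_eq_single c]
      · have hl := hℓ s(a, b)
        have hd := gdist_adj hℓ hab
        have hinf : ∀ (z : V) (W : G.Walk z (x c)),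
            |W.support.toFinset.inf' ⟨z, by simp⟩ (fun y => gdist G ℓ a y) -
              W.support.toFinset.inf' ⟨z, by simp⟩ (fun y => gdist G ℓ b y)| ≤ ℓ s(a, b) := by
          intro z W
          have hr : ∀ y ∈ W.support.toFinset, G.Reachable a y := fun y hy => by
            rw [List.mem_toFinset] at hy
            exact hca.symm.trans ⟨(W.dropUntil y hy).reverse⟩
          obtain ⟨y₁, hy₁, e₁⟩ := Finset.exists_mem_eq_inf' (s := W.support.toFinset)
            ⟨z, by simp⟩ (fun y => gdist G ℓ a y)
          obtain ⟨y₂, hy₂, e₂⟩ := Finset.exists_mem_eq_inf' (s := W.support.toFinset)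
            ⟨z, by simp⟩ (fun y => gdist G ℓ b y)
          have l₁ := Finset.inf'_le (s := W.support.toFinset) (fun y => gdist G ℓ b y) hy₁
          have l₂ := Finset.inf'_le (s := W.support.toFinset) (fun y => gdist G ℓ a y) hy₂
          have t₁ := abs_le.mp ((abs_gdist_le' hℓ hab.reachable (hr y₁ hy₁)))
          have t₂ := abs_le.mp ((abs_gdist_le' hℓ hab.reachable (hr y₂ hy₂)))
          rw [abs_le]
          constructor <;> linarith
        simp only [Fin.sum_univ_three, hF, hc, hcb, if_true, Matrix.cons_val_zero,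
          Matrix.cons_val_one, Matrix.cons_val, ← mul_sub, abs_mul, abs_two]
        have h0 := abs_gdist_le' hℓ hab.reachable hca.symm
        rw [gdist_comm hℓ (x c) a, gdist_comm hℓ (x c) b]
        linarith [hinf _ (P c), hinf _ (Q c)]
      · intro d _ hd
        refine Finset.sum_eq_zero fun i _ => ?_
        have h1 : G.connectedComponentMk a ≠ d.1 := fun e => hd (Subtype.ext (e.symm.trans hc))
        have h2 : G.connectedComponentMk b ≠ d.1 := fun e => hd (Subtype.ext (e.symm.trans hcb))
        simp [hF, h1, h2]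
      · simp
    · push Not at h
      have hb : ∀ c : CC, G.connectedComponentMk b ≠ c.1 := fun c e =>
        h c ((ConnectedComponent.sound hab.reachable).trans e)
      refine le_trans (le_of_eq ?_) (show (0 : ℝ) ≤ 5 * ℓ s(a, b) by linarith [hℓ s(a, b)])
      refine Finset.sum_eq_zero fun c _ => Finset.sum_eq_zero fun i _ => ?_
      simp [hF, h c, hb c]
  · intro s hs t ht hst
    simp only [mem_biUnion, mem_univ, true_and] at hs ht
    obtain ⟨c, hs⟩ := hs
    obtain ⟨c', ht⟩ := ht
    have hcs : G.connectedComponentMk s = c.1 :=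
      (ConnectedComponent.sound (hreach c s hs).symm).trans (hx c)
    have hct : G.connectedComponentMk t = c.1 :=
      (ConnectedComponent.sound hst.symm).trans hcs
    have hcc : c' = c := Subtype.ext
      ((hx c').symm.trans ((ConnectedComponent.sound (hreach c' t ht)).trans hct))
    subst hcc
    rw [hφ, Fintype.sum_prod_type]
    refine le_trans ?_ (Finset.single_le_sum
      (f := fun d => ∑ i : Fin 3, |F s (d, i) - F t (d, i)|)
      (fun d _ => Finset.sum_nonneg fun i _ => abs_nonneg _) (mem_univ c'))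
    simp only [Fin.sum_univ_three, hF, hcs, hct, if_true, Matrix.cons_val_zero,
      Matrix.cons_val_one, Matrix.cons_val, ← mul_sub, abs_mul, abs_two]
    have key : ∀ (z : V) (W : G.Walk z (x c')), Geo ℓ (x c') W → s ∈ W.support →
        gdist G ℓ s t ≤ |gdist G ℓ (x c') s - gdist G ℓ (x c') t| +
          2 * |W.support.toFinset.inf' ⟨z, by simp⟩ (fun y => gdist G ℓ s y) -
            W.support.toFinset.inf' ⟨z, by simp⟩ (fun y => gdist G ℓ t y)| := by
      intro z W hW hsW
      obtain ⟨y, hy, ey⟩ := Finset.exists_mem_eq_inf' (s := W.support.toFinset)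
        ⟨z, by simp⟩ (fun y => gdist G ℓ t y)
      rw [List.mem_toFinset] at hy
      have hzero : W.support.toFinset.inf' ⟨z, by simp⟩ (fun y => gdist G ℓ s y) = 0 :=
        le_antisymm ((Finset.inf'_le _ (List.mem_toFinset.mpr hsW)).trans (gdist_self hℓ s).le)
          (Finset.le_inf' _ _ fun y _ => gdist_nonneg hℓ s y)
      have hxy : G.Reachable (x c') y := ⟨(W.dropUntil y hy).reverse⟩
      have hxs := hreach c' s hs
      have hty : G.Reachable t y := hst.symm.trans (hxs.symm.trans hxy)
      have h1 := gdist_triangle hℓ (hst.trans hty) hty.symm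
      have h2 := hW.2 s hsW y hy
      have h3 := abs_gdist_le' hℓ hty (hxs.trans hst).symm
      rw [gdist_comm hℓ t (x c'), gdist_comm hℓ y (x c')] at h3
      have h4 := abs_sub_le (gdist G ℓ (x c') s) (gdist G ℓ (x c') t) (gdist G ℓ (x c') y)
      have h5 := gdist_comm hℓ (G := G) y t
      rw [hzero, ey, zero_sub, abs_neg, abs_of_nonneg (gdist_nonneg hℓ t y)]
      linarith
    simp only [hpart, mem_union, List.mem_toFinset] at hs
    rcases hs with h | h
    · refine (key _ _ (hP c') h).trans ?_
      exact le_add_of_nonneg_right (by positivity)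
    · refine (key _ _ (hQ c') h).trans ?_
      rw [add_right_comm]
      exact le_add_of_nonneg_right (by positivity)
  · set c : CC := ⟨G.connectedComponentMk y, y, wy, hy, rfl⟩
    refine ⟨v c, C c, hC c, fun z hz => mem_biUnion.mpr ⟨c, mem_univ _, ?_⟩⟩
    simpa [hpart] using hCs c z hz
where
  abs_gdist_le' {V : Type} {G : SimpleGraph V} {ℓ : Sym2 V → ℝ} (hℓ : ∀ e, 0 < ℓ e) {x y s : V}
      (hxy : G.Reachable x y) (hxs : G.Reachable x s) :
      |gdist G ℓ x s - gdist G ℓ y s| ≤ gdist G ℓ x y := by
    have := gdist_triangle hℓ hxy (hxy.symm.trans hxs)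
    have := gdist_triangle hℓ hxy.symm hxs
    have := gdist_comm hℓ (G := G) x y
    rw [abs_le]
    constructor <;> linarith

end Vale.Agent.P235
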