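import Vale.Agent.P235.Peel

/-!
Peeling many layers at once: the distortion grows additively in the number of layers.
-/

namespace Vale.Agent.P235

open Finset

variable {V : Type} [Fintype V] {G : SimpleGraph V} {ℓ : Sym2 V → ℝ}

/-- A function that is Lipschitz on edges is Lipschitz along walks. -/
lemma abs_sub_le_wlen {D : V → ℝ} (hD : ∀ a b, G.Adj a b → |D a - D b| ≤ ℓ s(a, b)) {x y : V}
    (p : G.Walk x y) : |D x - D y| ≤ wlen ℓ p := by
  induction p with
  | nil => simp
  | @cons u v w h q ih =>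
    rw [wlen_cons]
    exact (abs_sub_le _ _ _).trans (add_le_add (hD u v h) ih)

lemma exists_lift {W : Finset V} {x y : V} (p : G.Walk x y) (hp : ∀ z ∈ p.support, z ∉ W) :
    ∃ q : (avoid G W).Walk x y, wlen ℓ q = wlen ℓ p := by
  induction p with
  | nil => exact ⟨SimpleGraph.Walk.nil, by simp⟩
  | @cons u v w h q ih =>
    obtain ⟨r, hr⟩ := ih fun z hz => hp z (List.mem_cons_of_mem _ hz)
    refine ⟨SimpleGraph.Walk.cons (show (avoid G W).Adj u v from
      ⟨h, hp u (by simp), hp v (by simp)⟩) r, ?_⟩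
    rw [wlen_cons, wlen_cons, hr]

/-- The distance to `W`, large where `W` cannot be reached. -/
lemma exists_distTo (hℓ : ∀ e, 0 < ℓ e) (W : Finset V) :
    ∃ D : V → ℝ, (∀ x ∈ W, D x = 0) ∧ (∀ x, x ∉ W → 0 < D x) ∧
      (∀ a b, G.Adj a b → |D a - D b| ≤ ℓ s(a, b)) ∧
      ∀ x y, G.Reachable x y → ∀ a ≤ gdist G ℓ x y, D x < a →
        ∃ s ∈ W, ∃ p : G.Walk x s, wlen ℓ p < a := by
  classical
  set big : ℝ := (∑ e : Sym2 V, ℓ e) + 1 with hbig
  have hbig0 : 0 < big := by
    have := Finset.sum_nonneg (s := univ) fun e (_ : e ∈ univ) => (hℓ e).le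
    linarith
  have hδbig : ∀ x y, G.Reachable x y → gdist G ℓ x y ≤ big := by
    intro x y hxy
    obtain ⟨p, hp⟩ := hxy.exists_isPath
    refine (gdist_le hℓ p).trans ?_
    rw [wlen, ← List.sum_toFinset ℓ hp.isTrail.edges_nodup, hbig]
    linarith [Finset.sum_le_univ_sum_of_nonneg (s := p.edges.toFinset) (f := ℓ)
      fun e => (hℓ e).le]
  set dd : V → Option {s // s ∈ W} → ℝ := fun x o =>
    o.elim big fun s => if G.Reachable x s.1 then gdist G ℓ x s.1 else big with hdd
  set D : V → ℝ := fun x => univ.inf' univ_nonempty (dd x) with hD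
  have hDbig : ∀ x, D x ≤ big := fun x => Finset.inf'_le (dd x) (mem_univ none)
  have hDle : ∀ x, ∀ s ∈ W, G.Reachable x s → D x ≤ gdist G ℓ x s := fun x s hs hxs => by
    refine (Finset.inf'_le (dd x) (mem_univ (some ⟨s, hs⟩))).trans_eq ?_
    simp [hdd, hxs]
  have hDex : ∀ x, D x = big ∨ ∃ s ∈ W, G.Reachable x s ∧ D x = gdist G ℓ x s := by
    intro x
    obtain ⟨o, -, ho⟩ := Finset.exists_mem_eq_inf' univ_nonempty (dd x)
    rcases o with _ | ⟨s, hs⟩
    · exact Or.inl ho
    · by_cases hxs : G.Reachable x s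
      · exact Or.inr ⟨s, hs, hxs, ho.trans (by simp [hdd, hxs])⟩
      · exact Or.inl (ho.trans (by simp [hdd, hxs]))
  have hD0 : ∀ x, 0 ≤ D x := by
    intro x
    rcases hDex x with e | ⟨s, _, _, e⟩ <;> rw [e]
    exacts [hbig0.le, gdist_nonneg hℓ x s]
  have hDstep : ∀ a b, G.Adj a b → D a ≤ D b + ℓ s(a, b) := by
    intro a b hab
    rcases hDex b with e | ⟨s, hs, hbs, e⟩
    · linarith [hDbig a, hℓ s(a, b)]
    · linarith [hDle a s hs (hab.reachable.trans hbs),
        gdist_triangle hℓ hab.reachable hbs, gdist_adj hℓ hab]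
  refine ⟨D, fun x hx => le_antisymm ((hDle x x hx .rfl).trans (gdist_self hℓ x).le) (hD0 x),
    fun x hx => ?_, fun a b hab => ?_, fun x y hxy a ha hlt => ?_⟩
  · rcases hDex x with e | ⟨s, hs, hxs, e⟩ <;> rw [e]
    exacts [hbig0, gdist_pos hℓ hxs (fun e' => hx (e' ▸ hs))]
  · have := hDstep b a hab.symm
    rw [Sym2.eq_swap] at this
    rw [abs_le]
    constructor <;> linarith [hDstep a b hab]
  rcases hDex x with e | ⟨s, hs, hxs, e⟩
  · linarith [hδbig x y hxy]
  refine ⟨s, hs, ?_⟩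
  by_contra hc
  push Not at hc
  linarith [le_gdist hxs hc]

/-- One band: a Lipschitz map of `G - W`, truncated at the scale of the distance to `W`. -/
lemma exists_band (hℓ : ∀ e, 0 < ℓ e) (W : Finset V) (D : V → ℝ) (hDS : ∀ x ∈ W, D x = 0)
    (hDpos : ∀ x, x ∉ W → 0 < D x) (hDlip : ∀ a b, G.Adj a b → |D a - D b| ≤ ℓ s(a, b))
    {n : ℕ} (f : V → Fin n → ℝ) {L A : ℝ} (hL : 0 ≤ L) (hA : 0 < A)
    (hf : ∀ a b, (avoid G W).Adj a b → dist1 (f a) (f b) ≤ L * ℓ s(a, b)) :
    ∃ (N : ℕ) (g : V → Fin N → ℝ),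
      (∀ a b, G.Adj a b → dist1 (g a) (g b) ≤ (L + 32 * A) * ℓ s(a, b)) ∧
      ∀ x y, x ∉ W → y ∉ W → ∀ c : ℝ, 0 ≤ c → gdist G ℓ x y ≤ c * D x →
        ((avoid G W).Reachable x y → gdist G ℓ x y ≤ dist1 (f x) (f y)) →
        gdist G ℓ x y ≤ (1 + 2 * c / A) * (dist1 (g x) (g y) + 32 * A * |D x - D y|) := by
  classical
  haveI : Fintype (avoid G W).ConnectedComponent := Fintype.ofFinite _
  set I : Finset ℤ := univ.image (fun x => Int.log 2 (D x)) ∪
    univ.image (fun x => Int.log 2 (D x) + 1) with hI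
  have hsum : ∀ x, x ∉ W → ∑ i ∈ I, hat ((2 : ℝ) ^ i) (D x) = 1 := fun x hx =>
    hat_sum I (hDpos x hx) (mem_union_left _ (mem_image_of_mem _ (mem_univ x)))
      (mem_union_right _ (mem_image_of_mem (fun x => Int.log 2 (D x) + 1) (mem_univ x)))
  choose ι hι e he₁ he₂ he₃ using fun i : ℤ =>
    exists_trunc (fun x => (avoid G W).connectedComponentMk x) f
      (M := A * (2 : ℝ) ^ i) (by positivity)
  set T : V → (i : ℤ) → ι i → ℝ := fun x i j => hat ((2 : ℝ) ^ i) (D x) * (2 * e i x j) with hT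
  obtain ⟨N, g, hg⟩ := exists_fin_coords
    (fun x (w : (Σ i : {i // i ∈ I}, ι i.1)) => T x w.1.1 w.2)
  set Q : V → V → ℤ → ℝ := fun x y i => ∑ j, |T x i j - T y i j| with hQ
  have hsplit : ∀ x y, dist1 (g x) (g y) = ∑ i ∈ I, Q x y i := by
    intro x y
    rw [hg, ← Finset.sum_coe_sort I, Fintype.sum_sigma]
  set Wt : V → ℤ → ℝ := fun x i => ∑ j, |2 * e i x j| with hWt
  have hW0 : ∀ x i, 0 ≤ Wt x i := fun x i => Finset.sum_nonneg fun _ _ => abs_nonneg _
  have hWle : ∀ x i, Wt x i ≤ 4 * A * (2 : ℝ) ^ i := by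
    intro x i
    simp only [hWt, abs_mul, abs_two, ← Finset.mul_sum]
    linarith [he₁ i x]
  have hdiff : ∀ x y i, ∑ j, |2 * e i x j - 2 * e i y j| = 2 * ∑ j, |e i x j - e i y j| := by
    intro x y i
    simp only [← mul_sub, abs_mul, abs_two, ← Finset.mul_sum]
  refine ⟨N, g, fun a b hab => ?_, fun x y hx hy c hc hle hdom => ?_⟩
  · have hl := hℓ s(a, b)
    rw [hsplit]
    have hS : ∀ u v, u ∈ W → v ∉ W → |D u - D v| ≤ ℓ s(a, b) →
        ∑ i ∈ I, Q v u i ≤ 8 * A * ℓ s(a, b) := by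
      intro u v hu hv huv
      rw [hDS u hu, zero_sub, abs_neg, abs_of_pos (hDpos v hv)] at huv
      have hterm : ∀ i ∈ I, Q v u i ≤ hat ((2 : ℝ) ^ i) (D v) * (8 * A * ℓ s(a, b)) := by
        intro i _
        have e1 : Q v u i = hat ((2 : ℝ) ^ i) (D v) * Wt v i := by
          simp only [hQ, hT, hWt, hDS u hu, hat_zero, zero_mul, sub_zero, Finset.mul_sum]
          exact Finset.sum_congr rfl fun j _ => by rw [abs_mul, abs_of_nonneg (hat_nonneg _ _)]
        rw [e1]
        by_cases h0 : hat ((2 : ℝ) ^ i) (D v) = 0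
        · simp [h0]
        refine mul_le_mul_of_nonneg_left ((hWle v i).trans ?_) (hat_nonneg _ _)
        have h2 := (hat_supp (by positivity) h0).1
        have := mul_le_mul_of_nonneg_left (show (2 : ℝ) ^ i ≤ 2 * ℓ s(a, b) by linarith)
          (show 0 ≤ 4 * A by linarith)
        linarith
      refine (Finset.sum_le_sum hterm).trans ?_
      rw [← Finset.sum_mul, hsum v hv, one_mul]
    have hcmp : 8 * A * ℓ s(a, b) ≤ (L + 32 * A) * ℓ s(a, b) :=
      mul_le_mul_of_nonneg_right (by linarith) hl.le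
    by_cases ha : a ∈ W <;> by_cases hb : b ∈ W
    · have h0 : ∀ i, Q a b i = 0 := fun i => by simp [hQ, hT, hDS a ha, hDS b hb, hat_zero]
      rw [Finset.sum_congr rfl fun i _ => h0 i, Finset.sum_const_zero]
      positivity
    · have hs : ∀ i, Q a b i = Q b a i := fun i => by simp only [hQ, abs_sub_comm]
      rw [Finset.sum_congr rfl fun i _ => hs i]
      exact (hS a b ha hb (hDlip a b hab)).trans hcmp
    · exact (hS b a hb ha (by rw [abs_sub_comm]; exact hDlip a b hab)).trans hcmp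
    have hadj : (avoid G W).Adj a b := ⟨hab, ha, hb⟩
    have hcomp := SimpleGraph.ConnectedComponent.sound hadj.reachable
    have hterm : ∀ i ∈ I, Q a b i ≤ hat ((2 : ℝ) ^ i) (D a) * (L * ℓ s(a, b)) +
        |hat ((2 : ℝ) ^ i) (D a) - hat ((2 : ℝ) ^ i) (D b)| * Wt b i := by
      intro i _
      refine (scaled_sub_le (d := hat ((2 : ℝ) ^ i) (D b)) (hat_nonneg ((2 : ℝ) ^ i) (D a))
        (fun j => 2 * e i a j) (fun j => 2 * e i b j)).1.trans ?_
      refine add_le_add (mul_le_mul_of_nonneg_left ?_ (hat_nonneg _ _)) le_rfl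
      rw [hdiff, he₂ i a b hcomp]
      refine le_trans ?_ (hf a b hadj)
      have hM : 0 < A * (2 : ℝ) ^ i := by positivity
      have h1 := mul_le_mul_of_nonneg_left
        (exp_gap (dist1 (f a) (f b) / (A * (2 : ℝ) ^ i))
          (div_nonneg (Finset.sum_nonneg fun _ _ => abs_nonneg _) hM.le)).1 hM.le
      rw [mul_div_cancel₀ _ hM.ne'] at h1
      linarith
    refine (Finset.sum_le_sum hterm).trans ?_
    rw [Finset.sum_add_distrib, ← Finset.sum_mul, hsum a ha, one_mul]
    have := hat_cut I hA (hDpos a ha) (hDpos b hb) (Wt b) (hW0 b) (hWle b)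
    have := mul_le_mul_of_nonneg_left (hDlip a b hab) (show 0 ≤ 32 * A by positivity)
    linarith
  set r := 1 + 2 * c / A with hr
  have hr1 : 1 ≤ r := le_add_of_nonneg_right (by positivity)
  have hgain : ∀ i ∈ I, hat ((2 : ℝ) ^ i) (D x) * gdist G ℓ x y ≤
      r * (hat ((2 : ℝ) ^ i) (D x) * ∑ j, |2 * e i x j - 2 * e i y j|) := by
    intro i _
    by_cases h0 : hat ((2 : ℝ) ^ i) (D x) = 0
    · simp [h0]
    rw [mul_left_comm]
    refine mul_le_mul_of_nonneg_left ?_ (hat_nonneg _ _)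
    obtain ⟨-, hM2⟩ := hat_supp (by positivity) h0
    have hM : 0 < A * (2 : ℝ) ^ i := by positivity
    have hu : gdist G ℓ x y / (A * (2 : ℝ) ^ i) ≤ r - 1 := by
      rw [hr, add_sub_cancel_left, div_le_div_iff₀ hM hA]
      have := mul_le_mul_of_nonneg_left hM2.le (show 0 ≤ c * A by positivity)
      have := mul_le_mul_of_nonneg_right hle hA.le
      linarith
    rw [hdiff]
    by_cases hcomp : (avoid G W).connectedComponentMk x = (avoid G W).connectedComponentMk y
    · rw [he₂ i x y hcomp]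
      have := gain_le hM (gdist_nonneg hℓ x y)
        (hdom (SimpleGraph.ConnectedComponent.exact hcomp)) hu
      linarith
    · have h1 : gdist G ℓ x y ≤ r * (A * (2 : ℝ) ^ i) := by
        have := (div_le_iff₀ hM).mp hu
        linarith
      refine h1.trans (mul_le_mul_of_nonneg_left ?_ (by linarith))
      linarith [he₃ i x y hcomp]
  have h1 := Finset.sum_le_sum hgain
  rw [← Finset.sum_mul, hsum x hx, one_mul, ← Finset.mul_sum] at h1
  refine h1.trans (mul_le_mul_of_nonneg_left ?_ (by linarith))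
  have h2 := Finset.sum_le_sum (s := I) fun i _ =>
    (scaled_sub_le (d := hat ((2 : ℝ) ^ i) (D y)) (hat_nonneg ((2 : ℝ) ^ i) (D x))
      (fun j => 2 * e i x j) (fun j => 2 * e i y j)).2
  rw [Finset.sum_add_distrib] at h2
  have h3 := hat_cut I hA (hDpos x hx) (hDpos y hy) (Wt y) (hW0 y) (hWle y)
  rw [hsplit]
  simp only [hQ, hT, hWt] at h2 h3 ⊢
  linarith

/-- `k` layers at once: layer `j` is `U (j + 1)` outside `U j`, and it only needs an embedding of
`G - U j` that is `K`-Lipschitz and dominates on that layer. -/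
theorem l1At_multi (hℓ : ∀ e, 0 < ℓ e) (U : ℕ → Finset V) (k : ℕ) (hU0 : U 0 = ∅)
    {K C : ℝ} (hK : 0 ≤ K) (hC : 0 ≤ C)
    (hφ : ∀ j < k, ∃ (m : ℕ) (φ : V → Fin m → ℝ),
      (∀ a b, (avoid G (U j)).Adj a b → dist1 (φ a) (φ b) ≤ K * ℓ s(a, b)) ∧
      ∀ s ∈ U (j + 1), s ∉ U j → ∀ t ∈ U (j + 1), t ∉ U j → (avoid G (U j)).Reachable s t →
        gdist (avoid G (U j)) ℓ s t ≤ dist1 (φ s) (φ t))
    {n : ℕ} (f : V → Fin n → ℝ)
    (hf : ∀ x y, (avoid G (U k)).Reachable x y → gdist (avoid G (U k)) ℓ x y ≤ dist1 (f x) (f y) ∧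
      dist1 (f x) (f y) ≤ C * gdist (avoid G (U k)) ℓ x y) :
    ∃ (N : ℕ) (F : V → Fin N → ℝ), ∀ x y, G.Reachable x y →
      gdist G ℓ x y ≤ dist1 (F x) (F y) ∧
        dist1 (F x) (F y) ≤ (9 * C + (1 + K) * (650 * k + 650)) * gdist G ℓ x y := by
  classical
  choose D hDS hDpos hDlip hDwalk using fun j => exists_distTo (G := G) hℓ (U j)
  have hlev : ∀ j : Fin (k + 1), ∃ (m : ℕ) (ψ : V → Fin m → ℝ),
      (∀ a b, (avoid G (U j)).Adj a b →
        dist1 (ψ a) (ψ b) ≤ (if (j : ℕ) = k then C else 4 * K + 2) * ℓ s(a, b)) ∧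
      ∀ x y, (avoid G (U j)).Reachable x y →
        ((j : ℕ) < k → ∃ s ∈ U (j + 1), s ∉ U j ∧ ∃ p : (avoid G (U j)).Walk x s,
          4 * (1 + K) * wlen ℓ p < gdist G ℓ x y) →
        gdist G ℓ x y ≤ dist1 (ψ x) (ψ y) := by
    intro j
    by_cases hjk : (j : ℕ) = k
    · refine ⟨n, f, fun a b hab => ?_, fun x y hxy _ => ?_⟩
      · rw [hjk] at hab
        rw [if_pos hjk]
        exact (hf a b hab.reachable).2.trans
          (mul_le_mul_of_nonneg_left (gdist_adj hℓ hab) hC)
      · rw [hjk] at hxy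
        exact (gdist_mono (avoid_le G _) hℓ hxy).trans (hf x y hxy).1
    have hlt : (j : ℕ) < k := lt_of_le_of_ne (Nat.le_of_lt_succ j.2) hjk
    obtain ⟨m, φ, hφK, hφS⟩ := hφ j hlt
    obtain ⟨E, hES, -, hElip, hEfar⟩ := exists_setDist (G := avoid G (U j)) hℓ
      ((U (j + 1)).filter fun s => s ∉ U j) hK φ hφK (fun s hs t ht => by
        rw [mem_filter] at hs ht
        exact hφS s hs.1 hs.2 t ht.1 ht.2)
    obtain ⟨m', ψ, hψ⟩ := exists_fin_coords (fun x => Sum.elim (fun i : Fin m => 2 * φ x i)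
      fun _ : Unit => 2 * (1 + K) * E x)
    have hψd : ∀ x y, dist1 (ψ x) (ψ y) =
        2 * dist1 (φ x) (φ y) + 2 * (1 + K) * |E x - E y| := by
      intro x y
      rw [hψ, Fintype.sum_sum_type]
      congr 1
      · simp [dist1, ← mul_sub, abs_mul, Finset.mul_sum]
      · simp [← mul_sub, abs_mul, abs_of_nonneg (show 0 ≤ 1 + K by linarith)]
    refine ⟨m', ψ, fun a b hab => ?_, fun x y hxy hs => ?_⟩
    · rw [hψd, if_neg hjk]
      have := hφK a b hab
      have := mul_le_mul_of_nonneg_left (hElip a b hab) (show 0 ≤ 2 * (1 + K) by linarith)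
      linarith
    · obtain ⟨s, hs1, hs2, p, hp⟩ := hs hlt
      have hmono := gdist_mono (avoid_le G (U j)) hℓ hxy
      have hEx : E x ≤ wlen ℓ p := by
        have := (le_abs_self _).trans (abs_sub_le_wlen hElip p)
        rw [hES s (mem_filter.mpr ⟨hs1, hs2⟩), sub_zero] at this
        exact this
      have := mul_le_mul_of_nonneg_left hEx (show 0 ≤ 4 * (1 + K) by linarith)
      rw [hψd]
      exact hmono.trans (hEfar x y hxy (by linarith))
  choose m ψ hψlip hψdom using hlev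
  have hband : ∀ j : Fin (k + 1), ∃ (N : ℕ) (g : V → Fin N → ℝ),
      (∀ a b, G.Adj a b → dist1 (g a) (g b) ≤
        ((if (j : ℕ) = k then C else 4 * K + 2) + 32 * (1 + K)) * ℓ s(a, b)) ∧
      ∀ x y, x ∉ U j → y ∉ U j → ∀ c : ℝ, 0 ≤ c → gdist G ℓ x y ≤ c * D j x →
        ((avoid G (U j)).Reachable x y → gdist G ℓ x y ≤ dist1 (ψ j x) (ψ j y)) →
        gdist G ℓ x y ≤
          (1 + 2 * c / (1 + K)) * (dist1 (g x) (g y) + 32 * (1 + K) * |D j x - D j y|) :=
    fun j => exists_band hℓ (U j) (D j) (hDS j) (hDpos j) (hDlip j) (ψ j)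
      (by split_ifs <;> linarith) (by linarith) (hψlip j)
  choose N g hgup hglow using hband
  set B : ℝ := 36 * (1 + K) with hB
  obtain ⟨M, F, hF⟩ := exists_fin_coords (fun x => Sum.elim
    (fun w : (Σ j : Fin (k + 1), Fin (N j)) => 9 * g w.1 x w.2)
    fun j : Fin (k + 1) => 9 * (B * D j x))
  have hsplit : ∀ x y, dist1 (F x) (F y) =
      9 * (∑ j, (dist1 (g j x) (g j y) + B * |D j x - D j y|)) := by
    intro x y
    rw [hF, Fintype.sum_sum_type, Fintype.sum_sigma, Finset.sum_add_distrib, mul_add,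
      Finset.mul_sum, Finset.mul_sum]
    have hB0 : 0 ≤ B := by positivity
    congr 1
    · simp [dist1, ← mul_sub, abs_mul, Finset.mul_sum]
    · simp [← mul_sub, abs_mul, abs_of_nonneg hB0]
  have hterm0 : ∀ x y j, 0 ≤ dist1 (g j x) (g j y) + B * |D j x - D j y| := fun x y j =>
    add_nonneg (Finset.sum_nonneg fun _ _ => abs_nonneg _) (by positivity)
  have hup : ∀ a b, G.Adj a b →
      dist1 (F a) (F b) ≤ (9 * C + (1 + K) * (650 * k + 650)) * ℓ s(a, b) := by
    intro a b hab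
    rw [hsplit]
    have h1 : ∀ j : Fin (k + 1), dist1 (g j a) (g j b) + B * |D j a - D j b| ≤
        ((if (j : ℕ) = k then C else 4 * K + 2) + 68 * (1 + K)) * ℓ s(a, b) := by
      intro j
      have := hgup j a b hab
      have := mul_le_mul_of_nonneg_left (hDlip j a b hab) (show 0 ≤ B by positivity)
      rw [hB] at this ⊢
      linarith
    refine (mul_le_mul_of_nonneg_left (Finset.sum_le_sum fun j _ => h1 j) (by norm_num)).trans ?_
    rw [← Finset.sum_mul, ← mul_assoc]
    refine mul_le_mul_of_nonneg_right ?_ (hℓ _).le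
    rw [Fin.sum_univ_castSucc]
    simp only [Fin.val_castSucc, Fin.val_last, if_true]
    rw [Finset.sum_congr rfl fun (j : Fin k) _ =>
      show (if (j : ℕ) = k then C else 4 * K + 2) + 68 * (1 + K) = 4 * K + 2 + 68 * (1 + K) by
        rw [if_neg (ne_of_lt j.2)]]
    simp only [Finset.sum_const, card_univ, Fintype.card_fin, nsmul_eq_mul]
    have hk : (0 : ℝ) ≤ k := Nat.cast_nonneg k
    nlinarith [mul_nonneg hk hK]
  refine ⟨M, F, fun x y hxy => ⟨?_, ?_⟩⟩
  · set δ := gdist G ℓ x y with hδ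
    rw [hsplit]
    by_cases h0 : δ ≤ 0
    · exact h0.trans (mul_nonneg (by norm_num) (Finset.sum_nonneg fun j _ => hterm0 x y j))
    push Not at h0
    set a := δ / (4 * (1 + K)) with ha
    have hc : 0 < 4 * (1 + K) := by linarith
    have haδ : a ≤ δ := by
      rw [ha, div_le_iff₀ hc]
      exact le_mul_of_one_le_right h0.le (by linarith)
    have hex : ∃ j, j = k ∨ D (j + 1) x < a := ⟨k, Or.inl rfl⟩
    set j := Nat.find hex with hj
    have hjk : j ≤ k := Nat.find_min' hex (Or.inl rfl)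
    have hDj : a ≤ D j x := by
      by_contra hcon
      push Not at hcon
      rcases Nat.eq_zero_or_pos j with h | h
      · rw [h] at hcon
        obtain ⟨s, hs, -⟩ := hDwalk 0 x y hxy a haδ hcon
        rw [hU0] at hs
        simp at hs
      · have := Nat.find_min hex (show j - 1 < j by omega)
        rw [show j - 1 + 1 = j by omega] at this
        exact this (Or.inr hcon)
    have ha0 : 0 < a := div_pos h0 hc
    have hx : x ∉ U j := fun h => by linarith [hDS j x h]
    have hle : δ ≤ 4 * (1 + K) * D j x := by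
      rw [ha, div_le_iff₀ hc] at hDj
      linarith
    set J : Fin (k + 1) := ⟨j, by omega⟩ with hJ
    refine le_trans ?_ (mul_le_mul_of_nonneg_left
      (Finset.single_le_sum (fun i _ => hterm0 x y i) (mem_univ J)) (by norm_num))
    have hg0 : 0 ≤ dist1 (g J x) (g J y) := Finset.sum_nonneg fun _ _ => abs_nonneg _
    by_cases hy : y ∈ U j
    · have hB4 : 4 * (1 + K) * |D j x - D j y| ≤ B * |D j x - D j y| :=
        mul_le_mul_of_nonneg_right (by linarith) (abs_nonneg _)
      rw [hDS j y hy, sub_zero, abs_of_nonneg (by linarith)] at hB4 ⊢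
      linarith
    have hdom : (avoid G (U j)).Reachable x y → δ ≤ dist1 (ψ J x) (ψ J y) := by
      intro hH
      refine hψdom J x y hH fun hlt => ?_
      have hlt' : j < k := hlt
      have hDlt : D (j + 1) x < a := (Nat.find_spec hex).resolve_left (by omega)
      obtain ⟨s, hs, p, hp⟩ := hDwalk (j + 1) x y hxy a haδ hDlt
      have havoid : ∀ z ∈ p.support, z ∉ U j := by
        intro z hz hzU
        have h1 := abs_sub_le_wlen (hDlip j) (p.takeUntil z hz)
        have h2 : wlen ℓ (p.takeUntil z hz) ≤ wlen ℓ p := by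
          conv_rhs => rw [← p.take_spec hz, wlen_append]
          linarith [wlen_nonneg hℓ (p.dropUntil z hz)]
        rw [hDS j z hzU, sub_zero, abs_of_nonneg (by linarith)] at h1
        linarith
      obtain ⟨q, hq⟩ := exists_lift (ℓ := ℓ) p havoid
      refine ⟨s, hs, havoid s p.end_mem_support, q, ?_⟩
      rw [hq]
      rw [ha, lt_div_iff₀ hc] at hp
      linarith
    have key := hglow J x y hx hy (4 * (1 + K)) hc.le hle hdom
    rw [show 1 + 2 * (4 * (1 + K)) / (1 + K) = 9 by field_simp; ring] at key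
    refine key.trans (mul_le_mul_of_nonneg_left (add_le_add le_rfl ?_) (by norm_num))
    exact mul_le_mul_of_nonneg_right (by linarith) (abs_nonneg _)
  · have hpos : 0 < 9 * C + (1 + K) * (650 * k + 650) := by positivity
    rw [← div_le_iff₀' hpos]
    exact le_gdist hxy fun p => by rw [div_le_iff₀' hpos]; exact dist1_le_of_adj F hup p

end Vale.Agent.P235
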