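import Vale.Agent.P235.Trunc
import Vale.Agent.P235.Classes

/-!
Peeling a set `S` that has a Lipschitz map of the whole graph into `ℓ₁`, dominating on `S`:
the distortion of `G` is at most `(1 + 8 (1 + K) / A) (C + 64 A + 4 K + 2)`.
-/

namespace Vale.Agent.P235

open Finset

variable {V : Type} [Fintype V]

/-- The dyadic hat function at scale `M`. -/
noncomputable def hat (M t : ℝ) : ℝ := max 0 (min (2 * t / M - 1) (2 - t / M))

lemma hat_nonneg (M t : ℝ) : 0 ≤ hat M t := le_max_left _ _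

lemma hat_zero (M : ℝ) : hat M 0 = 0 := by simp [hat]

lemma hat_lip {M : ℝ} (hM : 0 < M) (s t : ℝ) : |hat M s - hat M t| ≤ 2 * |s - t| / M := by
  refine (abs_max_sub_max_le_max 0 _ 0 _).trans ?_
  rw [sub_self, abs_zero, max_le_iff]
  refine ⟨by positivity, (abs_min_sub_min_le_max _ _ _ _).trans (max_le ?_ ?_)⟩
  · rw [show 2 * s / M - 1 - (2 * t / M - 1) = 2 * (s - t) / M by ring, abs_div, abs_mul,
      abs_two, abs_of_pos hM]
  · rw [show 2 - s / M - (2 - t / M) = -((s - t) / M) by ring, abs_neg, abs_div, abs_of_pos hM]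
    gcongr
    linarith [abs_nonneg (s - t)]

lemma hat_supp {M t : ℝ} (hM : 0 < M) (h : hat M t ≠ 0) : M / 2 < t ∧ t < 2 * M := by
  have hpos : 0 < min (2 * t / M - 1) (2 - t / M) := by
    by_contra hle
    push Not at hle
    exact h (max_eq_left hle)
  rw [lt_min_iff] at hpos
  obtain ⟨h1, h2⟩ := hpos
  have h1' : 1 < 2 * t / M := by linarith
  have h2' : t / M < 2 := by linarith
  rw [lt_div_iff₀ hM] at h1'
  rw [div_lt_iff₀ hM] at h2'
  constructor <;> linarith

lemma hat_index {t : ℝ} (ht : 0 < t) (i : ℤ) (h : hat ((2 : ℝ) ^ i) t ≠ 0) :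
    i = Int.log 2 t ∨ i = Int.log 2 t + 1 := by
  set L := Int.log 2 t
  have hlo : (2 : ℝ) ^ L ≤ t := Int.zpow_log_le_self (by norm_num) ht
  have hhi : t < (2 : ℝ) ^ (L + 1) := Int.lt_zpow_succ_log_self (by norm_num) t
  obtain ⟨h₁, h₂⟩ := hat_supp (by positivity) h
  have a₁ : L ≤ i := by
    have : (2 : ℝ) ^ L < (2 : ℝ) ^ (i + 1) := by
      rw [zpow_add₀ two_ne_zero i 1, zpow_one]; linarith
    have := (zpow_lt_zpow_iff_right₀ (by norm_num : (1 : ℝ) < 2)).mp this
    omega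
  have a₂ : i ≤ L + 1 := by
    have : (2 : ℝ) ^ i < (2 : ℝ) ^ (L + 2) := by
      rw [show L + 2 = L + 1 + 1 by ring, zpow_add₀ two_ne_zero (L + 1) 1, zpow_one]
      linarith
    have := (zpow_lt_zpow_iff_right₀ (by norm_num : (1 : ℝ) < 2)).mp this
    omega
  omega

lemma hat_card (I : Finset ℤ) {t : ℝ} (ht : 0 < t) :
    (I.filter fun i => ¬ hat ((2 : ℝ) ^ i) t = 0).card ≤ 2 := by
  refine (card_le_card (t := {Int.log 2 t, Int.log 2 t + 1}) fun i hi => ?_).trans card_le_two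
  simpa using hat_index ht i (mem_filter.mp hi).2

lemma hat_sum (I : Finset ℤ) {t : ℝ} (ht : 0 < t) (h₀ : Int.log 2 t ∈ I)
    (h₁ : Int.log 2 t + 1 ∈ I) : ∑ i ∈ I, hat ((2 : ℝ) ^ i) t = 1 := by
  set L := Int.log 2 t with hL
  rw [← sum_subset (s₁ := {L, L + 1}) (by simp [insert_subset_iff, h₀, h₁]) fun i _ hi => by
    by_contra h
    exact hi (by simpa using hat_index ht i h)]
  rw [sum_pair (by omega)]
  have hlo : (2 : ℝ) ^ L ≤ t := Int.zpow_log_le_self (by norm_num) ht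
  have hhi : t < (2 : ℝ) ^ (L + 1) := Int.lt_zpow_succ_log_self (by norm_num) t
  rw [zpow_add₀ two_ne_zero L 1, zpow_one] at hhi ⊢
  have hM : (0 : ℝ) < 2 ^ L := by positivity
  set u := t / (2 : ℝ) ^ L with hu
  have u1 : 1 ≤ u := by rwa [hu, one_le_div hM]
  have u2 : u < 2 := by rw [hu, div_lt_iff₀ hM]; linarith
  have e1 : 2 * t / (2 : ℝ) ^ L = 2 * u := by rw [hu]; ring
  have e2 : 2 * t / ((2 : ℝ) ^ L * 2) = u := by rw [hu]; field_simp
  have e3 : t / ((2 : ℝ) ^ L * 2) = u / 2 := by rw [hu]; ring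
  rw [hat, hat, e1, e2, e3, ← hu, min_eq_right (by linarith), max_eq_right (by linarith),
    min_eq_left (by linarith), max_eq_right (by linarith)]
  ring

/-- Dyadic hat functions at two points differ little, even weighted by the scale. -/
lemma hat_cut (I : Finset ℤ) {A t u : ℝ} (hA : 0 < A) (ht : 0 < t) (hu : 0 < u) (w : ℤ → ℝ)
    (hw0 : ∀ i, 0 ≤ w i) (hw : ∀ i, w i ≤ 4 * A * (2 : ℝ) ^ i) :
    ∑ i ∈ I, |hat ((2 : ℝ) ^ i) t - hat ((2 : ℝ) ^ i) u| * w i ≤ 32 * A * |t - u| := by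
  have hterm : ∀ i ∈ I, |hat ((2 : ℝ) ^ i) t - hat ((2 : ℝ) ^ i) u| * w i ≤
      ((if hat ((2 : ℝ) ^ i) t = 0 then 0 else 1) +
        (if hat ((2 : ℝ) ^ i) u = 0 then 0 else 1)) * (8 * A * |t - u|) := by
    intro i _
    have hM0 : (0 : ℝ) < (2 : ℝ) ^ i := by positivity
    by_cases hz : hat ((2 : ℝ) ^ i) t = 0 ∧ hat ((2 : ℝ) ^ i) u = 0
    · simp [hz.1, hz.2]
    have h8 : |hat ((2 : ℝ) ^ i) t - hat ((2 : ℝ) ^ i) u| * w i ≤ 8 * A * |t - u| := by
      refine (mul_le_mul (hat_lip hM0 t u) (hw i) (hw0 i) (by positivity)).trans (le_of_eq ?_)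
      field_simp
      ring
    refine h8.trans (le_mul_of_one_le_left (by positivity) ?_)
    split_ifs with h1 h2 <;> norm_num
    exact hz ⟨h1, h2⟩
  refine (Finset.sum_le_sum hterm).trans ?_
  rw [← Finset.sum_mul, Finset.sum_add_distrib]
  simp only [Finset.sum_ite, Finset.sum_const_zero, zero_add, Finset.sum_const, nsmul_eq_mul,
    mul_one]
  have ht2 : ((I.filter fun i => ¬ hat ((2 : ℝ) ^ i) t = 0).card : ℝ) ≤ 2 := by
    exact_mod_cast hat_card I ht
  have hu2 : ((I.filter fun i => ¬ hat ((2 : ℝ) ^ i) u = 0).card : ℝ) ≤ 2 := by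
    exact_mod_cast hat_card I hu
  have := mul_le_mul_of_nonneg_right (add_le_add ht2 hu2)
    (show 0 ≤ 8 * A * |t - u| by positivity)
  linarith

lemma scaled_sub_le {ι : Type} [Fintype ι] {c d : ℝ} (hc : 0 ≤ c) (a b : ι → ℝ) :
    ∑ j, |c * a j - d * b j| ≤ c * ∑ j, |a j - b j| + |c - d| * ∑ j, |b j| ∧
      c * ∑ j, |a j - b j| ≤ ∑ j, |c * a j - d * b j| + |c - d| * ∑ j, |b j| := by
  simp only [Finset.mul_sum, ← Finset.sum_add_distrib]
  refine ⟨Finset.sum_le_sum fun j _ => ?_, Finset.sum_le_sum fun j _ => ?_⟩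
  · rw [show c * a j - d * b j = c * (a j - b j) + (c - d) * b j by ring]
    refine (abs_add_le _ _).trans ?_
    rw [abs_mul, abs_mul, abs_of_nonneg hc]
  · rw [← abs_mul (c - d) (b j)]
    have := abs_sub (c * a j - d * b j) ((c - d) * b j)
    rw [show c * a j - d * b j - (c - d) * b j = c * (a j - b j) by ring, abs_mul,
      abs_of_nonneg hc] at this
    exact this

/-- The distance to `S`, with a large value where `S` cannot be reached. -/
lemma exists_setDist {G : SimpleGraph V} {ℓ : Sym2 V → ℝ} (hℓ : ∀ e, 0 < ℓ e) (S : Finset V)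
    {K : ℝ} (hK : 0 ≤ K) {m : ℕ} (φ : V → Fin m → ℝ)
    (hφK : ∀ a b, G.Adj a b → dist1 (φ a) (φ b) ≤ K * ℓ s(a, b))
    (hφS : ∀ s ∈ S, ∀ t ∈ S, G.Reachable s t → gdist G ℓ s t ≤ dist1 (φ s) (φ t)) :
    ∃ D : V → ℝ, (∀ x ∈ S, D x = 0) ∧ (∀ x, x ∉ S → 0 < D x) ∧
      (∀ a b, G.Adj a b → |D a - D b| ≤ ℓ s(a, b)) ∧
      ∀ x y, G.Reachable x y → 4 * (1 + K) * D x < gdist G ℓ x y →
        gdist G ℓ x y ≤ 2 * dist1 (φ x) (φ y) + 2 * (1 + K) * |D x - D y| := by
  classical
  set big : ℝ := (∑ e : Sym2 V, ℓ e) + 1 with hbig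
  have hbig0 : 0 < big := by
    have := Finset.sum_nonneg (s := univ) fun e (_ : e ∈ univ) => (hℓ e).le
    linarith
  have hδbig : ∀ x y, G.Reachable x y → gdist G ℓ x y ≤ big := by
    intro x y hxy
    obtain ⟨p, hp⟩ := hxy.exists_isPath
    refine (gdist_le hℓ p).trans ?_
    rw [wlen, ← List.sum_toFinset ℓ hp.isTrail.edges_nodup, hbig]
    linarith [Finset.sum_le_univ_sum_of_nonneg (s := p.edges.toFinset) (f := ℓ)
      fun e => (hℓ e).le]
  set dd : V → Option {s // s ∈ S} → ℝ := fun x o =>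
    o.elim big fun s => if G.Reachable x s.1 then gdist G ℓ x s.1 else big with hdd
  set D : V → ℝ := fun x => univ.inf' univ_nonempty (dd x) with hD
  have hDbig : ∀ x, D x ≤ big := fun x => Finset.inf'_le (dd x) (mem_univ none)
  have hDle : ∀ x, ∀ s ∈ S, G.Reachable x s → D x ≤ gdist G ℓ x s := fun x s hs hxs => by
    refine (Finset.inf'_le (dd x) (mem_univ (some ⟨s, hs⟩))).trans_eq ?_
    simp [hdd, hxs]
  have hDex : ∀ x, D x = big ∨ ∃ s ∈ S, G.Reachable x s ∧ D x = gdist G ℓ x s := by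
    intro x
    obtain ⟨o, -, ho⟩ := Finset.exists_mem_eq_inf' univ_nonempty (dd x)
    rcases o with _ | ⟨s, hs⟩
    · exact Or.inl ho
    · by_cases hxs : G.Reachable x s
      · exact Or.inr ⟨s, hs, hxs, ho.trans (by simp [hdd, hxs])⟩
      · exact Or.inl (ho.trans (by simp [hdd, hxs]))
  have hD0 : ∀ x, 0 ≤ D x := by
    intro x
    rcases hDex x with e | ⟨s, _, _, e⟩ <;> rw [e]
    exacts [hbig0.le, gdist_nonneg hℓ x s]
  have hDstep : ∀ a b, G.Adj a b → D a ≤ D b + ℓ s(a, b) := by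
    intro a b hab
    rcases hDex b with e | ⟨s, hs, hbs, e⟩
    · linarith [hDbig a, hℓ s(a, b)]
    · linarith [hDle a s hs (hab.reachable.trans hbs),
        gdist_triangle hℓ hab.reachable hbs, gdist_adj hℓ hab]
  refine ⟨D, fun x hx => le_antisymm ((hDle x x hx .rfl).trans (gdist_self hℓ x).le) (hD0 x),
    fun x hx => ?_, fun a b hab => ?_, fun x y hxy hlt => ?_⟩
  · rcases hDex x with e | ⟨s, hs, hxs, e⟩ <;> rw [e]
    exacts [hbig0, gdist_pos hℓ hxs (fun e' => hx (e' ▸ hs))]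
  · have := hDstep b a hab.symm
    rw [Sym2.eq_swap] at this
    rw [abs_le]
    constructor <;> linarith [hDstep a b hab]
  have hP : 0 ≤ dist1 (φ x) (φ y) := Finset.sum_nonneg fun _ _ => abs_nonneg _
  have habs := neg_abs_le (D x - D y)
  have hKD := mul_nonneg hK (hD0 x)
  rcases hDex x with e | ⟨s, hs, hxs, e⟩
  · have := hδbig x y hxy
    rw [e] at hlt
    nlinarith
  rcases hDex y with e' | ⟨t, ht, hyt, e'⟩
  · have := hδbig x y hxy
    have := mul_nonneg hK (abs_nonneg (D x - D y))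
    linarith
  have hφlip : ∀ u v, G.Reachable u v → dist1 (φ u) (φ v) ≤ K * gdist G ℓ u v := by
    intro u v huv
    rcases eq_or_lt_of_le hK with hK' | hK'
    · obtain ⟨p⟩ := huv
      have := dist1_le_of_adj φ hφK p
      rw [← hK', zero_mul] at this ⊢
      exact this
    · rw [← div_le_iff₀' hK']
      exact le_gdist huv fun p => by rw [div_le_iff₀' hK']; exact dist1_le_of_adj φ hφK p
  have d1tri : ∀ u v w : Fin m → ℝ, dist1 u w ≤ dist1 u v + dist1 v w := fun u v w => by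
    rw [dist1, dist1, dist1, ← Finset.sum_add_distrib]
    exact Finset.sum_le_sum fun i _ => abs_sub_le _ _ _
  have hst : G.Reachable s t := hxs.symm.trans (hxy.trans hyt)
  have h1 := hφS s hs t ht hst
  have h2 := d1tri (φ s) (φ x) (φ t)
  have h3 := d1tri (φ x) (φ y) (φ t)
  have h4 := hφlip s x hxs.symm
  have h5 := hφlip y t hyt
  have h6 := gdist_triangle hℓ hxs (hst.trans hyt.symm)
  have h7 := gdist_triangle hℓ hst hyt.symm
  have h8 := gdist_comm hℓ (G := G) t y
  have h9 := gdist_comm hℓ (G := G) s x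
  have h10 := mul_le_mul_of_nonneg_left (show D y ≤ D x + |D x - D y| by linarith)
    (show 0 ≤ 1 + K by linarith)
  rw [h9] at h4
  rw [e', e] at h10 ⊢
  rw [e] at hlt
  linarith

lemma gain_le {M d F r : ℝ} (hM : 0 < M) (hd : 0 ≤ d) (hdF : d ≤ F) (hr : d / M ≤ r - 1) :
    d ≤ r * (M * (1 - Real.exp (-(F / M)))) := by
  have hu0 : 0 ≤ d / M := div_nonneg hd hM.le
  have hpos : 0 < 1 + d / M := by linarith
  have hexp : Real.exp (-(F / M)) ≤ 1 / (1 + d / M) := by
    rw [Real.exp_neg, one_div]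
    refine inv_anti₀ hpos ?_
    linarith [Real.add_one_le_exp (F / M), div_le_div_of_nonneg_right hdF hM.le]
  have key : d ≤ r * (M * (1 - 1 / (1 + d / M))) := by
    have e1 : M * (1 - 1 / (1 + d / M)) = d / (1 + d / M) := by
      field_simp
      ring
    rw [e1, ← mul_div_assoc, le_div_iff₀ hpos, mul_comm r]
    exact mul_le_mul_of_nonneg_left (by linarith) hd
  refine key.trans (mul_le_mul_of_nonneg_left ?_ (by linarith))
  exact mul_le_mul_of_nonneg_left (sub_le_sub_left hexp 1) hM.le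

/-- Embedding for one length function, peeling `S`. -/
theorem l1At_peel {G : SimpleGraph V} {S : Finset V} {ℓ : Sym2 V → ℝ} (hℓ : ∀ e, 0 < ℓ e)
    {K A C : ℝ} (hK : 0 ≤ K) (hA : 0 < A) (hC : 0 ≤ C) {m : ℕ} {φ : V → Fin m → ℝ}
    (hφK : ∀ a b, G.Adj a b → dist1 (φ a) (φ b) ≤ K * ℓ s(a, b))
    (hφS : ∀ s ∈ S, ∀ t ∈ S, G.Reachable s t → gdist G ℓ s t ≤ dist1 (φ s) (φ t))
    {n : ℕ} {f : V → Fin n → ℝ}
    (hf : ∀ x y, (avoid G S).Reachable x y → gdist (avoid G S) ℓ x y ≤ dist1 (f x) (f y) ∧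
      dist1 (f x) (f y) ≤ C * gdist (avoid G S) ℓ x y) :
    ∃ (N : ℕ) (F : V → Fin N → ℝ), ∀ x y, G.Reachable x y →
      gdist G ℓ x y ≤ dist1 (F x) (F y) ∧ dist1 (F x) (F y) ≤
        (1 + 8 * (1 + K) / A) * (C + 64 * A + 4 * K + 2) * gdist G ℓ x y := by
  classical
  obtain ⟨D, hDS, hDpos, hDlip, hDfar⟩ := exists_setDist hℓ S hK φ hφK hφS
  haveI : Fintype (avoid G S).ConnectedComponent := Fintype.ofFinite _
  set r := 1 + 8 * (1 + K) / A with hr
  have hr1 : 1 ≤ r := le_add_of_nonneg_right (by positivity)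
  set I : Finset ℤ := univ.image (fun x => Int.log 2 (D x)) ∪
    univ.image (fun x => Int.log 2 (D x) + 1) with hI
  have hsum : ∀ x, x ∉ S → ∑ i ∈ I, hat ((2 : ℝ) ^ i) (D x) = 1 := fun x hx =>
    hat_sum I (hDpos x hx) (mem_union_left _ (mem_image_of_mem _ (mem_univ x)))
      (mem_union_right _ (mem_image_of_mem (fun x => Int.log 2 (D x) + 1) (mem_univ x)))
  choose ι hι e he₁ he₂ he₃ using fun i : ℤ =>
    exists_trunc (fun x => (avoid G S).connectedComponentMk x) f
      (M := A * (2 : ℝ) ^ i) (by positivity)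
  set B : ℝ := 32 * A + 2 * (1 + K) with hB
  have hB0 : 0 ≤ B := by positivity
  set T : V → (i : ℤ) → ι i → ℝ := fun x i j => hat ((2 : ℝ) ^ i) (D x) * (2 * e i x j) with hT
  obtain ⟨N, g, hg⟩ := exists_fin_coords
    (fun x => Sum.elim (Sum.elim (fun k : Fin m => 2 * φ x k) fun _ : Unit => B * D x)
      fun w : (Σ i : {i // i ∈ I}, ι i.1) => T x w.1.1 w.2)
  set Q : V → V → ℤ → ℝ := fun x y i => ∑ j, |T x i j - T y i j| with hQ
  have hsplit : ∀ x y, dist1 (g x) (g y) =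
      2 * dist1 (φ x) (φ y) + B * |D x - D y| + ∑ i ∈ I, Q x y i := by
    intro x y
    rw [hg, Fintype.sum_sum_type, Fintype.sum_sum_type, ← Finset.sum_coe_sort I,
      Fintype.sum_sigma]
    congr 1
    congr 1
    · simp [dist1, ← mul_sub, abs_mul, Finset.mul_sum]
    · simp [← mul_sub, abs_mul, abs_of_nonneg hB0]
  set W : V → ℤ → ℝ := fun x i => ∑ j, |2 * e i x j| with hW
  have hW0 : ∀ x i, 0 ≤ W x i := fun x i => Finset.sum_nonneg fun _ _ => abs_nonneg _
  have hWle : ∀ x i, W x i ≤ 4 * A * (2 : ℝ) ^ i := by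
    intro x i
    simp only [hW, abs_mul, abs_two, ← Finset.mul_sum]
    linarith [he₁ i x]
  have hdiff : ∀ x y i, ∑ j, |2 * e i x j - 2 * e i y j| = 2 * ∑ j, |e i x j - e i y j| := by
    intro x y i
    simp only [← mul_sub, abs_mul, abs_two, ← Finset.mul_sum]
  have hup : ∀ a b, G.Adj a b →
      dist1 (g a) (g b) ≤ (C + 64 * A + 4 * K + 2) * ℓ s(a, b) := by
    intro a b hab
    have hl := hℓ s(a, b)
    have hS : ∀ u v, u ∈ S → v ∉ S → |D u - D v| ≤ ℓ s(a, b) →
        ∑ i ∈ I, Q v u i ≤ 8 * A * ℓ s(a, b) := by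
      intro u v hu hv huv
      rw [hDS u hu, zero_sub, abs_neg, abs_of_pos (hDpos v hv)] at huv
      have hterm : ∀ i ∈ I, Q v u i ≤ hat ((2 : ℝ) ^ i) (D v) * (8 * A * ℓ s(a, b)) := by
        intro i _
        have e1 : Q v u i = hat ((2 : ℝ) ^ i) (D v) * W v i := by
          simp only [hQ, hT, hW, hDS u hu, hat_zero, zero_mul, sub_zero, Finset.mul_sum]
          exact Finset.sum_congr rfl fun j _ => by rw [abs_mul, abs_of_nonneg (hat_nonneg _ _)]
        rw [e1]
        by_cases h0 : hat ((2 : ℝ) ^ i) (D v) = 0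
        · simp [h0]
        refine mul_le_mul_of_nonneg_left ((hWle v i).trans ?_) (hat_nonneg _ _)
        have h2 := (hat_supp (by positivity) h0).1
        have := mul_le_mul_of_nonneg_left (show (2 : ℝ) ^ i ≤ 2 * ℓ s(a, b) by linarith)
          (show 0 ≤ 4 * A by linarith)
        linarith
      refine (Finset.sum_le_sum hterm).trans ?_
      rw [← Finset.sum_mul, hsum v hv, one_mul]
    have hQ' : ∑ i ∈ I, Q a b i ≤ (C + 32 * A) * ℓ s(a, b) := by
      have hcmp : 8 * A * ℓ s(a, b) ≤ (C + 32 * A) * ℓ s(a, b) :=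
        mul_le_mul_of_nonneg_right (by linarith) hl.le
      by_cases ha : a ∈ S <;> by_cases hb : b ∈ S
      · have h0 : ∀ i, Q a b i = 0 := fun i => by simp [hQ, hT, hDS a ha, hDS b hb, hat_zero]
        rw [Finset.sum_congr rfl fun i _ => h0 i, Finset.sum_const_zero]
        positivity
      · have hs : ∀ i, Q a b i = Q b a i := fun i => by simp only [hQ, abs_sub_comm]
        rw [Finset.sum_congr rfl fun i _ => hs i]
        exact (hS a b ha hb (hDlip a b hab)).trans hcmp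
      · exact (hS b a hb ha (by rw [abs_sub_comm]; exact hDlip a b hab)).trans hcmp
      have hadj : (avoid G S).Adj a b := ⟨hab, ha, hb⟩
      have hcomp := SimpleGraph.ConnectedComponent.sound hadj.reachable
      have hfd : dist1 (f a) (f b) ≤ C * ℓ s(a, b) :=
        (hf a b hadj.reachable).2.trans (mul_le_mul_of_nonneg_left (gdist_adj hℓ hadj) hC)
      have hterm : ∀ i ∈ I, Q a b i ≤ hat ((2 : ℝ) ^ i) (D a) * (C * ℓ s(a, b)) +
          |hat ((2 : ℝ) ^ i) (D a) - hat ((2 : ℝ) ^ i) (D b)| * W b i := by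
        intro i _
        refine (scaled_sub_le (d := hat ((2 : ℝ) ^ i) (D b)) (hat_nonneg ((2 : ℝ) ^ i) (D a))
          (fun j => 2 * e i a j) (fun j => 2 * e i b j)).1.trans ?_
        refine add_le_add (mul_le_mul_of_nonneg_left ?_ (hat_nonneg _ _)) le_rfl
        rw [hdiff, he₂ i a b hcomp]
        refine le_trans ?_ hfd
        have hM : 0 < A * (2 : ℝ) ^ i := by positivity
        have h1 := mul_le_mul_of_nonneg_left
          (exp_gap (dist1 (f a) (f b) / (A * (2 : ℝ) ^ i))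
            (div_nonneg (Finset.sum_nonneg fun _ _ => abs_nonneg _) hM.le)).1 hM.le
        rw [mul_div_cancel₀ _ hM.ne'] at h1
        linarith
      refine (Finset.sum_le_sum hterm).trans ?_
      rw [Finset.sum_add_distrib, ← Finset.sum_mul, hsum a ha, one_mul]
      have := hat_cut I hA (hDpos a ha) (hDpos b hb) (W b) (hW0 b) (hWle b)
      have := mul_le_mul_of_nonneg_left (hDlip a b hab) (show 0 ≤ 32 * A by positivity)
      linarith
    rw [hsplit]
    have := hφK a b hab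
    have := mul_le_mul_of_nonneg_left (hDlip a b hab) hB0
    have : B * ℓ s(a, b) = 32 * A * ℓ s(a, b) + 2 * (1 + K) * ℓ s(a, b) := by rw [hB]; ring
    linarith
  have hQn : ∀ x y, 0 ≤ ∑ i ∈ I, Q x y i := fun x y =>
    Finset.sum_nonneg fun i _ => Finset.sum_nonneg fun _ _ => abs_nonneg _
  have hBv : ∀ x y, B * |D x - D y| = 32 * A * |D x - D y| + 2 * (1 + K) * |D x - D y| :=
    fun x y => by rw [hB]; ring
  have hfar : ∀ x y, G.Reachable x y → 4 * (1 + K) * D x < gdist G ℓ x y →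
      gdist G ℓ x y ≤ r * dist1 (g x) (g y) := by
    intro x y hxy hlt
    refine le_trans ?_ (le_mul_of_one_le_left (Finset.sum_nonneg fun _ _ => abs_nonneg _) hr1)
    rw [hsplit, hBv]
    have : 0 ≤ 32 * A * |D x - D y| := by positivity
    linarith [hDfar x y hxy hlt, hQn x y]
  have hnear : ∀ x y, x ∉ S → y ∉ S → G.Reachable x y →
      gdist G ℓ x y ≤ 4 * (1 + K) * D x → gdist G ℓ x y ≤ r * dist1 (g x) (g y) := by
    intro x y hx hy hxy hle
    have hgain : ∀ i ∈ I, hat ((2 : ℝ) ^ i) (D x) * gdist G ℓ x y ≤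
        r * (hat ((2 : ℝ) ^ i) (D x) * ∑ j, |2 * e i x j - 2 * e i y j|) := by
      intro i _
      by_cases h0 : hat ((2 : ℝ) ^ i) (D x) = 0
      · simp [h0]
      rw [mul_left_comm]
      refine mul_le_mul_of_nonneg_left ?_ (hat_nonneg _ _)
      obtain ⟨-, hM2⟩ := hat_supp (by positivity) h0
      have hM : 0 < A * (2 : ℝ) ^ i := by positivity
      have hu : gdist G ℓ x y / (A * (2 : ℝ) ^ i) ≤ r - 1 := by
        rw [hr, add_sub_cancel_left, div_le_div_iff₀ hM hA]
        have := mul_le_mul_of_nonneg_left hM2.le (show 0 ≤ 4 * (1 + K) * A by positivity)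
        have := mul_le_mul_of_nonneg_right hle hA.le
        linarith
      rw [hdiff]
      by_cases hcomp : (avoid G S).connectedComponentMk x = (avoid G S).connectedComponentMk y
      · rw [he₂ i x y hcomp]
        have hreach := SimpleGraph.ConnectedComponent.exact hcomp
        have := gain_le hM (gdist_nonneg hℓ x y)
          ((gdist_mono (avoid_le G S) hℓ hreach).trans (hf x y hreach).1) hu
        linarith
      · have h1 : gdist G ℓ x y ≤ r * (A * (2 : ℝ) ^ i) := by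
          have := (div_le_iff₀ hM).mp hu
          linarith
        refine h1.trans (mul_le_mul_of_nonneg_left ?_ (by linarith))
        linarith [he₃ i x y hcomp]
    have h1 := Finset.sum_le_sum hgain
    rw [← Finset.sum_mul, hsum x hx, one_mul, ← Finset.mul_sum] at h1
    refine h1.trans (mul_le_mul_of_nonneg_left ?_ (by linarith))
    have h2 := Finset.sum_le_sum (s := I) fun i _ =>
      (scaled_sub_le (d := hat ((2 : ℝ) ^ i) (D y)) (hat_nonneg ((2 : ℝ) ^ i) (D x))
        (fun j => 2 * e i x j) (fun j => 2 * e i y j)).2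
    rw [Finset.sum_add_distrib] at h2
    have h3 := hat_cut I hA (hDpos x hx) (hDpos y hy) (W y) (hW0 y) (hWle y)
    have h4 : 0 ≤ dist1 (φ x) (φ y) := Finset.sum_nonneg fun _ _ => abs_nonneg _
    have h5 : 0 ≤ 2 * (1 + K) * |D x - D y| := by positivity
    rw [hsplit, hBv]
    simp only [hQ, hT, hW] at h2 h3 ⊢
    linarith
  refine ⟨N, fun x i => r * g x i, fun x y hxy => ?_⟩
  have hsc : dist1 (fun i => r * g x i) (fun i => r * g y i) = r * dist1 (g x) (g y) := by
    simp [dist1, ← mul_sub, abs_mul, abs_of_nonneg (show 0 ≤ r by linarith), Finset.mul_sum]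
  rw [hsc]
  refine ⟨?_, ?_⟩
  · have hsym : gdist G ℓ x y = gdist G ℓ y x := gdist_comm hℓ x y
    have hd1 : dist1 (g x) (g y) = dist1 (g y) (g x) := by simp only [dist1, abs_sub_comm]
    have hgn : 0 ≤ r * dist1 (g x) (g y) :=
      mul_nonneg (by linarith) (Finset.sum_nonneg fun _ _ => abs_nonneg _)
    by_cases h0 : gdist G ℓ x y = 0
    · linarith
    have hp : 0 < gdist G ℓ x y := lt_of_le_of_ne (gdist_nonneg hℓ x y) (Ne.symm h0)
    by_cases hx : x ∈ S
    · exact hfar x y hxy (by rw [hDS x hx]; simpa using hp)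
    by_cases hy : y ∈ S
    · have := hfar y x hxy.symm (by rw [hDS y hy, ← hsym]; simpa using hp)
      rw [← hsym, ← hd1] at this
      exact this
    by_cases hle : gdist G ℓ x y ≤ 4 * (1 + K) * D x
    · exact hnear x y hx hy hxy hle
    · exact hfar x y hxy (not_le.mp hle)
  · rw [mul_assoc]
    refine mul_le_mul_of_nonneg_left ?_ (by linarith)
    have hpos : 0 < C + 64 * A + 4 * K + 2 := by positivity
    rw [← div_le_iff₀' hpos]
    exact le_gdist hxy fun p => by rw [div_le_iff₀' hpos]; exact dist1_le_of_adj g hup p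

theorem l1Bound_peel {G : SimpleGraph V} {S : Finset V} {K A C : ℝ} (hK : 0 ≤ K) (hA : 0 < A)
    (hC : 0 ≤ C) (hext : HasExt G S K) (h : L1Bound (avoid G S) C) :
    L1Bound G ((1 + 8 * (1 + K) / A) * (C + 64 * A + 4 * K + 2)) := by
  intro ℓ hℓ
  obtain ⟨m, φ, hφK, hφS⟩ := hext ℓ hℓ
  obtain ⟨n, f, hf⟩ := h ℓ hℓ
  exact l1At_peel hℓ hK hA hC hφK hφS hf

end Vale.Agent.P235
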