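import Vale.Agent.P235.PlaneDefs

/-!
In a plane rotation system every even edge set is a sum of face boundaries modulo `2`.
-/

namespace Vale.Agent.P235

open SimpleGraph Finset

variable {V : Type} {G : SimpleGraph V} {ρ : Equiv.Perm G.Dart}

lemma facePerm_apply (G : SimpleGraph V) (ρ : Equiv.Perm G.Dart) (d : G.Dart) :
    facePerm G ρ d = ρ d.symm := rfl

lemma facePerm_fst (hρ : IsRotation G ρ) (d : G.Dart) : (facePerm G ρ d).fst = d.snd :=
  (hρ.1 d.symm).trans rfl

/-- The face of a dart. -/
abbrev faceOf (G : SimpleGraph V) (ρ : Equiv.Perm G.Dart) (d : G.Dart) :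
    Quotient (Equiv.Perm.SameCycle.setoid (facePerm G ρ)) :=
  Quotient.mk _ d

lemma faceOf_next (G : SimpleGraph V) (ρ : Equiv.Perm G.Dart) (d : G.Dart) :
    faceOf G ρ (facePerm G ρ d) = faceOf G ρ d :=
  Quotient.sound (show (facePerm G ρ).SameCycle (facePerm G ρ d) d from
    (Equiv.Perm.sameCycle_apply_right.mpr (Equiv.Perm.SameCycle.refl _ d)).symm)

lemma faceOf_rotate (G : SimpleGraph V) (ρ : Equiv.Perm G.Dart) (d : G.Dart) :
    faceOf G ρ (ρ d) = faceOf G ρ d.symm := by
  have := faceOf_next G ρ d.symm
  rwa [facePerm_apply, Dart.symm_symm] at this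

/-- A function on darts invariant under rotation is constant at each vertex. -/
lemma const_at_vertex [Finite G.Dart] {α : Type} (hρ : IsRotation G ρ) (κ : G.Dart → α) (v : V)
    (hκ : ∀ d : G.Dart, d.fst = v → κ (ρ d) = κ d) {d d' : G.Dart} (hd : d.fst = v)
    (hd' : d'.fst = v) : κ d = κ d' := by
  obtain ⟨i, rfl⟩ := (hρ.2 d d' (hd.trans hd'.symm)).exists_nat_pow_eq
  clear hd'
  induction i with
  | zero => rfl
  | succ i ih =>
    have hf : ∀ j, ((ρ ^ j) d).fst = v := fun j => by
      induction j with
      | zero => exact hd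
      | succ j jh => rw [pow_succ', Equiv.Perm.mul_apply, hρ.1]; exact jh
    rw [pow_succ', Equiv.Perm.mul_apply, hκ _ (hf i)]
    exact ih

/-- A function on darts invariant under rotation and reversal is constant along walks. -/
lemma const_along {α : Type} [Finite G.Dart] (hρ : IsRotation G ρ) (κ : G.Dart → α) {u w : V}
    (p : G.Walk u w) (hκ : ∀ d : G.Dart, d.fst ∈ p.support → κ (ρ d) = κ d)
    (hs : ∀ d : G.Dart, d.fst ∈ p.support → d.snd ∈ p.support → κ d.symm = κ d) {d d' : G.Dart}
    (hd : d.fst = u) (hd' : d'.fst = w) : κ d = κ d' := by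
  induction p generalizing d with
  | nil => exact const_at_vertex hρ κ _ (fun e he => hκ e (by simp [he])) hd hd'
  | @cons a b c h q ih =>
    let e : G.Dart := ⟨(a, b), h⟩
    have h1 : κ d = κ e :=
      const_at_vertex hρ κ a (fun f hf => hκ f (by simp [hf])) hd rfl
    have h2 : κ e.symm = κ e := hs e (by simp [e]) (by simp [e])
    rw [h1, ← h2]
    exact ih (fun f hf => hκ f (by simp [hf])) (fun f hf hf' => hs f (by simp [hf]) (by simp [hf']))
      rfl hd'

variable [Fintype V]

/-- The boundary of an edge chain: the sum over the darts leaving each vertex. -/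
noncomputable def bd (G : SimpleGraph V) [Fintype G.Dart] [DecidableEq V] :
    (G.edgeSet → ZMod 2) →ₗ[ZMod 2] (V → ZMod 2) where
  toFun C v := ∑ d : G.Dart, if d.fst = v then C ⟨d.edge, d.edge_mem⟩ else 0
  map_add' C C' := by
    funext v
    simp only [Pi.add_apply, ← Finset.sum_add_distrib]
    exact Finset.sum_congr rfl fun d _ => by split_ifs <;> simp
  map_smul' a C := by
    funext v
    simp only [Pi.smul_apply, smul_eq_mul, RingHom.id_apply, Finset.mul_sum]
    exact Finset.sum_congr rfl fun d _ => by split_ifs <;> simp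

lemma zmod_two_add_self (a : ZMod 2) : a + a = 0 := by revert a; decide

lemma bd_dart [DecidableEq V] [Fintype G.Dart] [DecidableEq G.edgeSet] (e : G.Dart) (v : V) :
    bd G (Pi.single ⟨e.edge, e.edge_mem⟩ 1) v =
      (if e.fst = v then 1 else 0) + if e.snd = v then 1 else 0 := by
  classical
  change (∑ d : G.Dart, if d.fst = v then
    (Pi.single ⟨e.edge, e.edge_mem⟩ 1 : G.edgeSet → ZMod 2) ⟨d.edge, d.edge_mem⟩ else 0) = _
  rw [← Finset.sum_subset (s₁ := {e, e.symm}) (Finset.subset_univ _)]
  · rw [Finset.sum_pair e.symm_ne.symm]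
    simp
  · intro d _ hd
    simp only [mem_insert, mem_singleton] at hd
    have : (⟨d.edge, d.edge_mem⟩ : G.edgeSet) ≠ ⟨e.edge, e.edge_mem⟩ := fun h =>
      hd ((dart_edge_eq_iff d e).mp (congrArg Subtype.val h))
    simp [Pi.single_eq_of_ne this]

open Classical in
/-- In a plane rotation system, an edge chain with zero boundary is a sum of face boundaries. -/
theorem exists_face_chain (hP : IsPlane G ρ) (C : G.edgeSet → ZMod 2)
    (hC : bd G C = 0) : ∃ χ : G.Dart → ZMod 2, (∀ d, χ (facePerm G ρ d) = χ d) ∧
      ∀ d : G.Dart, C ⟨d.edge, d.edge_mem⟩ = χ d + χ d.symm := by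
  obtain ⟨hρ, hcount⟩ := hP
  haveI : Fintype G.ConnectedComponent := Fintype.ofFinite _
  haveI : Fintype (Quotient (Equiv.Perm.SameCycle.setoid (facePerm G ρ))) := Fintype.ofFinite _
  simp only [Nat.card_eq_fintype_card] at hcount
  set Face := Quotient (Equiv.Perm.SameCycle.setoid (facePerm G ρ))
  have hsurj : ∀ e : G.edgeSet, ∃ d : G.Dart, d.edge = e.1 := by
    rintro ⟨e, he⟩
    induction e using Sym2.ind with
    | h a b => exact ⟨⟨(a, b), he⟩, rfl⟩
  choose pick hpick using hsurj
  let δ₂ : (Face → ZMod 2) →ₗ[ZMod 2] (G.edgeSet → ZMod 2) :=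
    LinearMap.pi fun e =>
      (LinearMap.proj (R := ZMod 2) (φ := fun _ : Face => ZMod 2) (faceOf G ρ (pick e))) +
      (LinearMap.proj (R := ZMod 2) (φ := fun _ : Face => ZMod 2) (faceOf G ρ (pick e).symm))
  have hδ₂ : ∀ (χ : Face → ZMod 2) (d : G.Dart),
      δ₂ χ ⟨d.edge, d.edge_mem⟩ = χ (faceOf G ρ d) + χ (faceOf G ρ d.symm) := by
    intro χ d
    simp only [δ₂, LinearMap.pi_apply, LinearMap.add_apply, LinearMap.proj_apply]
    rcases (dart_edge_eq_iff _ d).mp (hpick ⟨d.edge, d.edge_mem⟩) with h | h <;> rw [h]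
    rw [Dart.symm_symm, add_comm]
  have hle : LinearMap.range δ₂ ≤ LinearMap.ker (bd G) := by
    rintro _ ⟨χ, rfl⟩
    rw [LinearMap.mem_ker]
    funext v
    change (∑ d : G.Dart, if d.fst = v then δ₂ χ ⟨d.edge, d.edge_mem⟩ else 0) = 0
    simp only [hδ₂]
    have h1 : ∑ d : G.Dart, (if d.fst = v then χ (faceOf G ρ d.symm) else 0) =
        ∑ d : G.Dart, if d.fst = v then χ (faceOf G ρ d) else 0 := by
      conv_rhs => rw [← Equiv.sum_comp ρ]
      exact Finset.sum_congr rfl fun d _ => by rw [hρ.1, faceOf_rotate]
    calc (∑ d : G.Dart, if d.fst = v then χ (faceOf G ρ d) + χ (faceOf G ρ d.symm) else 0)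
        = (∑ d : G.Dart, if d.fst = v then χ (faceOf G ρ d) else 0) +
          ∑ d : G.Dart, if d.fst = v then χ (faceOf G ρ d.symm) else 0 := by
          rw [← Finset.sum_add_distrib]
          exact Finset.sum_congr rfl fun d _ => by split_ifs <;> simp
      _ = 0 := by rw [h1, zmod_two_add_self]
  set c' := {c : G.ConnectedComponent // ∃ d : G.Dart, G.connectedComponentMk d.fst = c}
  have hker : Module.finrank (ZMod 2) (LinearMap.ker δ₂) ≤ Fintype.card c' := by
    choose rep hrep using fun c : c' => c.2
    let L : LinearMap.ker δ₂ →ₗ[ZMod 2] (c' → ZMod 2) :=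
      (LinearMap.pi fun c =>
        LinearMap.proj (R := ZMod 2) (φ := fun _ : Face => ZMod 2) (faceOf G ρ (rep c))).comp (Submodule.subtype _)
    have hinj : Function.Injective L := by
      rw [injective_iff_map_eq_zero]
      rintro ⟨χ, hχ⟩ h0
      have hsymm : ∀ d : G.Dart, χ (faceOf G ρ d.symm) = χ (faceOf G ρ d) := by
        intro d
        have := congrFun (LinearMap.mem_ker.mp hχ) ⟨d.edge, d.edge_mem⟩
        rw [hδ₂, Pi.zero_apply] at this
        calc χ (faceOf G ρ d.symm)
            = χ (faceOf G ρ d) + χ (faceOf G ρ d) + χ (faceOf G ρ d.symm) := by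
              rw [zmod_two_add_self, zero_add]
          _ = χ (faceOf G ρ d) := by rw [add_assoc, this, add_zero]
      apply Subtype.ext
      funext q
      induction q using Quotient.inductionOn with
      | h d =>
        obtain ⟨p⟩ := ConnectedComponent.exact
          (hrep ⟨G.connectedComponentMk d.fst, d, rfl⟩)
        have := const_along hρ (fun e => χ (faceOf G ρ e)) p
          (fun e _ => by simp only [faceOf_rotate, hsymm]) (fun e _ _ => hsymm e) rfl rfl (d' := d)
        exact this.symm.trans (congrFun h0 _)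
    simpa [Module.finrank_pi] using LinearMap.finrank_le_finrank_of_injective hinj
  have hbd : Fintype.card V ≤
      Module.finrank (ZMod 2) (LinearMap.range (bd G)) + Fintype.card G.ConnectedComponent := by
    let J : (G.ConnectedComponent → ZMod 2) →ₗ[ZMod 2] (V → ZMod 2) :=
      ∑ c, (LinearMap.single (ZMod 2) (fun _ : V => ZMod 2) c.out).comp (LinearMap.proj c)
    have hJ : ∀ c, J (Pi.single c 1) = Pi.single c.out 1 := by
      intro c
      simp only [J, LinearMap.sum_apply, LinearMap.comp_apply, LinearMap.proj_apply,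
        LinearMap.coe_single]
      rw [Finset.sum_eq_single c]
      · simp
      · intro b _ hb
        simp [hb]
      · simp
    have hstep : ∀ {a b : V}, G.Walk a b →
        (Pi.single a 1 + Pi.single b 1 : V → ZMod 2) ∈ LinearMap.range (bd G) := by
      intro a b p
      induction p with
      | nil => convert Submodule.zero_mem _; funext v; simp [zmod_two_add_self]
      | @cons u w z h q ih =>
        let e : G.Dart := ⟨(u, w), h⟩
        have he : (Pi.single u 1 + Pi.single w 1 : V → ZMod 2) ∈ LinearMap.range (bd G) := by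
          refine ⟨Pi.single ⟨e.edge, e.edge_mem⟩ 1, ?_⟩
          funext v
          rw [bd_dart]
          simp [e, Pi.single_apply, eq_comm]
        convert Submodule.add_mem _ he ih using 1
        funext v
        simp only [Pi.add_apply]
        linear_combination -(zmod_two_add_self ((Pi.single w 1 : V → ZMod 2) v))
    have htop : LinearMap.range (bd G) ⊔ LinearMap.range J = ⊤ := by
      rw [eq_top_iff]
      intro f _
      rw [← Finset.univ_sum_single f]
      refine Submodule.sum_mem _ fun v _ => ?_
      have h1 : Pi.single v (f v) = f v • (Pi.single v 1 : V → ZMod 2) := by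
        funext w; simp [Pi.single_apply]
      rw [h1]
      refine Submodule.smul_mem _ _ ?_
      set c := G.connectedComponentMk v
      obtain ⟨p⟩ := ConnectedComponent.exact
        (show G.connectedComponentMk v = G.connectedComponentMk c.out from c.out_eq.symm)
      have h2 := Submodule.add_mem (LinearMap.range (bd G) ⊔ LinearMap.range J)
        (Submodule.mem_sup_left (hstep p)) (Submodule.mem_sup_right ⟨Pi.single c 1, hJ c⟩)
      convert h2 using 1
      funext w
      simp only [Pi.add_apply]
      linear_combination -(zmod_two_add_self ((Pi.single c.out 1 : V → ZMod 2) w))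
    have h1 := Submodule.finrank_add_le_finrank_add_finrank (LinearMap.range (bd G))
      (LinearMap.range J)
    rw [htop, finrank_top, Module.finrank_pi] at h1
    have h2 := LinearMap.finrank_range_le J
    rw [Module.finrank_pi] at h2
    omega
  have r1 := LinearMap.finrank_range_add_finrank_ker δ₂
  have r2 := LinearMap.finrank_range_add_finrank_ker (bd G)
  rw [Module.finrank_pi] at r1 r2
  have hcount' : Fintype.card V + Fintype.card Face =
      Fintype.card G.edgeSet + Fintype.card G.ConnectedComponent + Fintype.card c' := by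
    convert hcount
  have heq : LinearMap.range δ₂ = LinearMap.ker (bd G) :=
    Submodule.eq_of_le_of_finrank_le hle (by omega)
  obtain ⟨χ, hχ⟩ := (heq.symm ▸ LinearMap.mem_ker.mpr hC : C ∈ LinearMap.range δ₂)
  exact ⟨fun d => χ (faceOf G ρ d), fun d => by simp only [faceOf_next],
    fun d => by rw [← hδ₂, hχ]⟩

end Vale.Agent.P235
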