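import Vale.Agent.P235.Plane
import Vale.Agent.P235.Rounds

/-!
The vertices of one face per component of a plane graph, in boundary order, form a `CrossOrder`.
-/

namespace Vale.Agent.P235

open SimpleGraph Finset

variable {V : Type} {G : SimpleGraph V}

/-- The edge chain of a walk. -/
noncomputable def chain [DecidableEq G.edgeSet] {u w : V} : G.Walk u w → G.edgeSet → ZMod 2
  | SimpleGraph.Walk.nil => 0
  | @SimpleGraph.Walk.cons _ _ a b _ h q => Pi.single ⟨s(a, b), h⟩ 1 + chain q

lemma chain_zero [DecidableEq G.edgeSet] {u w : V} (p : G.Walk u w) (d : G.Dart)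
    (hd : d.fst ∉ p.support) : chain p ⟨d.edge, d.edge_mem⟩ = 0 := by
  induction p with
  | nil => rfl
  | @cons a b c h q ih =>
    simp only [Walk.support_cons, List.mem_cons, not_or] at hd
    rw [chain, Pi.add_apply, ih hd.2, add_zero, Pi.single_eq_of_ne]
    intro he
    rcases (dart_edge_eq_iff d ⟨(a, b), h⟩).mp (congrArg Subtype.val he) with rfl | rfl
    · exact hd.1 rfl
    · exact hd.2 (q.start_mem_support)

lemma chain_bd [Fintype V] [DecidableEq V] [Fintype G.Dart] [DecidableEq G.edgeSet] {u w : V}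
    (p : G.Walk u w) (v : V) :
    bd G (chain p) v = (if u = v then 1 else 0) + if w = v then 1 else 0 := by
  induction p with
  | nil => simp [chain, zmod_two_add_self]
  | @cons a b c h q ih =>
    rw [chain, map_add, Pi.add_apply, ih,
      show (⟨s(a, b), h⟩ : G.edgeSet) =
        ⟨(⟨(a, b), h⟩ : G.Dart).edge, (⟨(a, b), h⟩ : G.Dart).edge_mem⟩ from rfl, bd_dart]
    linear_combination zmod_two_add_self (if b = v then (1 : ZMod 2) else 0)

/-- Walks joining interleaved boundary points of a face meet. -/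
lemma face_cross [Fintype V] {ρ : Equiv.Perm G.Dart} (hP : IsPlane G ρ) (d₀ : G.Dart)
    {i j k l : ℕ} (hij : i < j) (hjk : j < k) (hkl : k < l)
    (hl : l < Function.minimalPeriod (facePerm G ρ) d₀)
    (p : G.Walk ((facePerm G ρ)^[i] d₀).fst ((facePerm G ρ)^[k] d₀).fst)
    (q : G.Walk ((facePerm G ρ)^[j] d₀).fst ((facePerm G ρ)^[l] d₀).fst) :
    ∃ z, z ∈ p.support ∧ z ∈ q.support := by
  classical
  have hρ := hP.1
  revert p q
  set φ := facePerm G ρ with hφ
  intro p q
  by_contra hdis
  push Not at hdis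
  have inj : ∀ a b, a ≤ l → b ≤ l → φ^[a] d₀ = φ^[b] d₀ → a = b := fun a b ha hb h =>
    Function.iterate_injOn_Iio_minimalPeriod (show a < _ by omega) (show b < _ by omega) h
  set A : Finset G.Dart := (Finset.Ico i k).image fun m => φ^[m] d₀ with hA
  set T : G.edgeSet → ZMod 2 :=
    ∑ m ∈ Finset.Ico i k, Pi.single ⟨(φ^[m] d₀).edge, (φ^[m] d₀).edge_mem⟩ 1 with hT
  have hTd : ∀ d : G.Dart, T ⟨d.edge, d.edge_mem⟩ =
      (if d ∈ A then 1 else 0) + if d.symm ∈ A then 1 else 0 := by
    intro d
    rw [hT, Finset.sum_apply]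
    have h1 : ∀ e : G.Dart, (if e ∈ A then (1 : ZMod 2) else 0) =
        ∑ m ∈ Finset.Ico i k, if φ^[m] d₀ = e then 1 else 0 := by
      intro e
      rw [← Finset.sum_image (f := fun x => if x = e then (1 : ZMod 2) else 0)
        (g := fun m => φ^[m] d₀), ← hA, Finset.sum_ite_eq' A e fun _ => (1 : ZMod 2)]
      intro a ha b hb h
      simp only [Finset.coe_Ico, Set.mem_Ico] at ha hb
      exact inj a b (by omega) (by omega) h
    rw [h1 d, h1 d.symm, ← Finset.sum_add_distrib]
    refine Finset.sum_congr rfl fun m _ => ?_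
    by_cases h : φ^[m] d₀ = d
    · simp [h, d.symm_ne.symm]
    by_cases h' : φ^[m] d₀ = d.symm
    · simp [h', Dart.edge_symm, d.symm_ne]
    rw [if_neg h, if_neg h', add_zero, Pi.single_eq_of_ne]
    intro he
    rcases (dart_edge_eq_iff d (φ^[m] d₀)).mp (congrArg Subtype.val he) with e | e
    · exact h e.symm
    · exact h' (by rw [e, Dart.symm_symm])
  have hTbd' : ∀ v b, i ≤ b →
      ∑ m ∈ Finset.Ico i b, bd G (Pi.single ⟨(φ^[m] d₀).edge, (φ^[m] d₀).edge_mem⟩ 1) v =
      (if (φ^[i] d₀).fst = v then 1 else 0) + if (φ^[b] d₀).fst = v then 1 else 0 := by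
    intro v b hb
    induction b, hb using Nat.le_induction with
    | base => simp [zmod_two_add_self]
    | succ b hb ih =>
      rw [Finset.sum_Ico_succ_top hb, ih, bd_dart, Function.iterate_succ_apply', hφ,
        facePerm_fst hρ]
      linear_combination zmod_two_add_self
        (if ((facePerm G ρ)^[b] d₀).fst = v then (1 : ZMod 2) else 0)
  have hTbd : ∀ v, bd G T v =
      (if (φ^[i] d₀).fst = v then 1 else 0) + if (φ^[k] d₀).fst = v then 1 else 0 := fun v => by
    rw [hT, map_sum, Finset.sum_apply]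
    exact hTbd' v k (hij.trans hjk).le
  have hC : bd G (chain p + T) = 0 := by
    funext v
    rw [map_add, Pi.add_apply, chain_bd, hTbd, Pi.zero_apply]
    exact zmod_two_add_self _
  obtain ⟨χ, hχ, hχC⟩ := exists_face_chain hP _ hC
  set κ : G.Dart → ZMod 2 := fun d => χ d + if d ∈ A then 1 else 0 with hκ
  have hκs : ∀ d : G.Dart, d.fst ∉ p.support → κ d.symm = κ d := by
    intro d hd
    have h := hχC d
    rw [Pi.add_apply, chain_zero p d hd, zero_add, hTd] at h
    simp only [hκ]
    linear_combination -h + zmod_two_add_self (χ d.symm) +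
      zmod_two_add_self (if d.symm ∈ A then (1 : ZMod 2) else 0) -
      zmod_two_add_self (χ d.symm + χ d) + zmod_two_add_self (χ d) - zmod_two_add_self (χ d) 
  have hκφ : ∀ d, (φ d).fst ∉ p.support → κ (φ d) = κ d := by
    intro d hd
    simp only [hκ, hφ, hχ]
    congr 1
    have hi : φ d ≠ φ^[i] d₀ := fun e => hd (by rw [e]; exact p.start_mem_support)
    have hk : φ d ≠ φ^[k] d₀ := fun e => hd (by rw [e]; exact p.end_mem_support)
    have hiff : φ d ∈ A ↔ d ∈ A := by
      simp only [hA, Finset.mem_image, Finset.mem_Ico]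
      constructor
      · rintro ⟨m, hm, e⟩
        have hm0 : i < m := lt_of_le_of_ne hm.1 fun e' => hi (e' ▸ e.symm)
        refine ⟨m - 1, ⟨by omega, by omega⟩, φ.injective ?_⟩
        rw [← Function.iterate_succ_apply' φ, show (m - 1).succ = m by omega, e]
      · rintro ⟨m, hm, rfl⟩
        refine ⟨m + 1, ⟨by omega, ?_⟩, Function.iterate_succ_apply' φ m d₀⟩
        refine lt_of_le_of_ne (by omega) fun e' => hk ?_
        rw [← e', Function.iterate_succ_apply' φ]
    simp only [← hφ, hiff]
  have hκρ : ∀ d : G.Dart, d.fst ∈ q.support → κ (ρ d) = κ d := by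
    intro d hd
    have hd' : d.fst ∉ p.support := fun h => hdis d.fst h hd
    have e : φ d.symm = ρ d := by rw [hφ, facePerm_apply, Dart.symm_symm]
    rw [← e, hκφ d.symm (by rw [e, hρ.1]; exact hd'), hκs d hd']
  have := const_along hρ κ q hκρ (fun d hd _ => hκs d fun h => hdis d.fst h hd)
    (d := φ^[j] d₀) (d' := φ^[l] d₀) rfl rfl
  have hj : φ^[j] d₀ ∈ A := Finset.mem_image_of_mem _ (Finset.mem_Ico.mpr ⟨hij.le, hjk⟩)
  have hl' : φ^[l] d₀ ∉ A := by
    simp only [hA, Finset.mem_image, Finset.mem_Ico, not_exists, not_and]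
    intro m hm e
    have := inj m l (by omega) le_rfl e
    omega
  have hχc : ∀ m, χ (φ^[m] d₀) = χ d₀ := fun m => by
    induction m with
    | zero => rfl
    | succ m ih => rw [Function.iterate_succ_apply', hφ, hχ]; exact ih
  simp only [hκ, hχc, if_pos hj, if_neg hl', add_right_inj] at this
  exact one_ne_zero this

/-- The boundary list of the face of a dart. -/
noncomputable def faceList (G : SimpleGraph V) (ρ : Equiv.Perm G.Dart) (d₀ : G.Dart) : List V :=
  (List.range (Function.minimalPeriod (facePerm G ρ) d₀)).map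
    fun m => ((facePerm G ρ)^[m] d₀).fst

lemma crossOrder_faceList [Fintype V] {ρ : Equiv.Perm G.Dart} (hP : IsPlane G ρ) (d₀ : G.Dart) :
    CrossOrder G (faceList G ρ d₀) := by
  intro a b c d h p q
  obtain ⟨ns, hns, heq⟩ := List.sublist_map_iff.mp h
  have hlen := congrArg List.length heq
  simp at hlen
  match ns, heq, hlen, hns with
  | [i, j, k, l], heq, _, hns =>
    simp at heq
    obtain ⟨rfl, rfl, rfl, rfl⟩ := heq
    have hpw := List.pairwise_lt_range.sublist hns
    simp at hpw
    have hl := hns.subset (show l ∈ [i, j, k, l] by simp)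
    rw [List.mem_range] at hl
    exact face_cross hP d₀ hpw.1.1 hpw.2.1.1 hpw.2.2 hl p q

lemma reachable_faceList {ρ : Equiv.Perm G.Dart} (hρ : IsRotation G ρ) (d₀ : G.Dart) {x : V}
    (hx : x ∈ faceList G ρ d₀) : G.Reachable d₀.fst x ∧ ∃ y, G.Adj x y := by
  obtain ⟨m, -, rfl⟩ := List.mem_map.mp hx
  refine ⟨?_, _, ((facePerm G ρ)^[m] d₀).adj⟩
  clear hx
  induction m with
  | zero => exact .rfl
  | succ m ih =>
    rw [Function.iterate_succ_apply', facePerm_fst hρ]
    exact ih.trans ((facePerm G ρ)^[m] d₀).adj.reachable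

lemma crossOrder_append {L₁ L₂ : List V} (h₁ : CrossOrder G L₁) (h₂ : CrossOrder G L₂)
    (h : ∀ a ∈ L₁, ∀ b ∈ L₂, ¬ G.Reachable a b) : CrossOrder G (L₁ ++ L₂) := by
  intro a b c d hs p q
  obtain ⟨l₁, l₂, heq, s₁, s₂⟩ := List.sublist_append_iff.mp hs
  have hlen := congrArg List.length heq
  simp at hlen
  match l₁, heq, hlen, s₁ with
  | [], heq, _, _ =>
    simp at heq
    exact h₂ a b c d (heq ▸ s₂) p q
  | [u], heq, _, s₁ =>
    simp at heq
    obtain ⟨rfl, rfl⟩ := heq
    exact absurd ⟨p⟩ (h a (s₁.subset (by simp)) c (s₂.subset (by simp)))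
  | [u, v], heq, _, s₁ =>
    simp at heq
    obtain ⟨rfl, rfl, rfl⟩ := heq
    exact absurd ⟨p⟩ (h a (s₁.subset (by simp)) c (s₂.subset (by simp)))
  | [u, v, w], heq, _, s₁ =>
    simp at heq
    obtain ⟨rfl, rfl, rfl, rfl⟩ := heq
    exact absurd ⟨q⟩ (h b (s₁.subset (by simp)) d (s₂.subset (by simp)))
  | [u, v, w, z], heq, _, s₁ =>
    simp at heq
    obtain ⟨rfl, rfl, rfl, rfl, -⟩ := heq
    exact h₁ a b c d s₁ p q
  | u :: v :: w :: z :: r :: t, _, hlen, _ =>
    simp at hlen
    omega

theorem exists_crossOrder_of_outerSet [Fintype V] {S : Finset V} (h : OuterSet G S) :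
    ∃ L : List V, (∀ x, x ∈ S ↔ x ∈ L) ∧ CrossOrder G L := by
  classical
  obtain ⟨ρ, R, hP, hR, hS⟩ := h
  have hρ := hP.1
  set iso : List V := (S.filter fun x => ∀ y, ¬ G.Adj x y).toList with hiso
  set faces : List V := R.toList.flatMap (faceList G ρ) with hfaces
  have hfc : ∀ M : List G.Dart, M.Nodup → (∀ d ∈ M, d ∈ R) →
      CrossOrder G (M.flatMap (faceList G ρ)) := by
    intro M
    induction M with
    | nil => intro _ _ a b c d hs; simp at hs
    | cons d M ih =>
      intro hnd hsub
      rw [List.flatMap_cons]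
      refine crossOrder_append (crossOrder_faceList hP d)
        (ih hnd.of_cons fun e he => hsub e (List.mem_cons_of_mem _ he)) fun a ha b hb hab => ?_
      obtain ⟨e, he, hbe⟩ := List.mem_flatMap.mp hb
      have := hR d (hsub d (List.mem_cons_self ..)) e (hsub e (List.mem_cons_of_mem _ he))
        ((reachable_faceList hρ d ha).1.trans
          (hab.trans (reachable_faceList hρ e hbe).1.symm))
      exact (List.nodup_cons.mp hnd).1 (this ▸ he)
  have hisolated : ∀ a ∈ iso, ∀ b, G.Reachable a b → a = b := by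
    intro a ha b ⟨p⟩
    rw [hiso, Finset.mem_toList, Finset.mem_filter] at ha
    cases p with
    | nil => rfl
    | cons hadj _ => exact absurd hadj (ha.2 _)
  have hall : CrossOrder G (iso ++ faces) := by
    refine crossOrder_append (crossOrder_of_not_reachable ?_)
      (hfc _ R.nodup_toList fun d hd => Finset.mem_toList.mp hd) fun a ha b hb hab => ?_
    · exact (Finset.nodup_toList _).pairwise_of_forall_ne
        fun a ha b _ hne hr => hne (hisolated a ha b hr)
    · obtain rfl := hisolated a ha b hab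
      obtain ⟨e, -, hbe⟩ := List.mem_flatMap.mp hb
      obtain ⟨y, hy⟩ := (reachable_faceList hρ e hbe).2
      rw [hiso, Finset.mem_toList, Finset.mem_filter] at ha
      exact ha.2 y hy
  refine ⟨(iso ++ faces).filter fun x => decide (x ∈ S), fun x => ⟨fun hx => ?_, fun hx => ?_⟩,
    hall.sublist List.filter_sublist⟩
  · simp only [List.mem_filter, List.mem_append, decide_eq_true_eq]
    refine ⟨?_, hx⟩
    rcases hS x hx with hi | ⟨d, hd, d', hcyc, rfl⟩
    · exact Or.inl (by simp [hiso, hx, hi])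
    · refine Or.inr (List.mem_flatMap.mpr ⟨d, Finset.mem_toList.mpr hd, ?_⟩)
      obtain ⟨n, hn⟩ := hcyc.exists_nat_pow_eq
      rw [Equiv.Perm.coe_pow, ← Function.iterate_mod_minimalPeriod_eq] at hn
      refine List.mem_map.mpr ⟨n % Function.minimalPeriod (facePerm G ρ) d, ?_, by rw [hn]⟩
      rw [List.mem_range]
      exact Nat.mod_lt _ (Function.minimalPeriod_pos_iff_mem_periodicPts.mpr
        ((facePerm G ρ).injective.mem_periodicPts d))
  · simpa using (List.mem_filter.mp hx).2

theorem peel_of_outerRounds [Fintype V] :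
    ∀ (k : ℕ) (G : SimpleGraph V), OuterRounds k G → Peel k G
  | 0, _, h => h
  | k + 1, G, ⟨S, hS, hk⟩ => by
    obtain ⟨L, hL, hc⟩ := exists_crossOrder_of_outerSet hS
    exact ⟨L, S, hL, hc, peel_of_outerRounds k _ hk⟩

end Vale.Agent.P235
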