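import Vale.Agent.P235.Defs

/-!
Plane graphs as rotation systems of Euler characteristic `2` on every component.
-/

namespace Vale.Agent.P235

variable {V : Type}

/-- `ρ` is a rotation system: it cyclically permutes the darts leaving each vertex. -/
def IsRotation (G : SimpleGraph V) (ρ : Equiv.Perm G.Dart) : Prop :=
  (∀ d : G.Dart, (ρ d).fst = d.fst) ∧ ∀ d d' : G.Dart, d.fst = d'.fst → ρ.SameCycle d d'

/-- The face successor of a dart: reverse it, then rotate. Its cycles are the face boundaries. -/
def facePerm (G : SimpleGraph V) (ρ : Equiv.Perm G.Dart) : Equiv.Perm G.Dart :=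
  (Function.Involutive.toPerm SimpleGraph.Dart.symm SimpleGraph.Dart.symm_involutive).trans ρ

/-- The rotation system is plane: `V + F = E + c + c'`, where `c` counts the components and `c'`
those with an edge (so `V - E + F = 2` on each component with an edge). -/
def IsPlane (G : SimpleGraph V) (ρ : Equiv.Perm G.Dart) : Prop :=
  IsRotation G ρ ∧
    Nat.card V + Nat.card (Quotient (Equiv.Perm.SameCycle.setoid (facePerm G ρ))) =
      Nat.card G.edgeSet + Nat.card G.ConnectedComponent +
        Nat.card {c : G.ConnectedComponent // ∃ d : G.Dart, G.connectedComponentMk d.fst = c}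

/-- For some plane rotation system, every vertex of `S` is isolated or lies on one of a set of
faces with at most one face in each component (for example, the outer faces). -/
def OuterSet (G : SimpleGraph V) (S : Finset V) : Prop :=
  ∃ (ρ : Equiv.Perm G.Dart) (R : Finset G.Dart), IsPlane G ρ ∧
    (∀ d ∈ R, ∀ d' ∈ R, G.Reachable d.fst d'.fst → d = d') ∧
    ∀ x ∈ S, (∀ y, ¬ G.Adj x y) ∨ ∃ d ∈ R, ∃ d', (facePerm G ρ).SameCycle d d' ∧ d'.fst = x

/-- A forest is left after `k` rounds of deleting outer-face vertices of plane graphs. -/
def OuterRounds : ℕ → SimpleGraph V → Prop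
  | 0, G => G.IsAcyclic
  | k + 1, G => ∃ S : Finset V, OuterSet G S ∧ OuterRounds k (avoid G S)

end Vale.Agent.P235
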