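import Vale.Agent.P235.Defs

/-!
Truncating an `ℓ₁` metric at a scale `M`, by a random sign with correlation `exp (-distance)`.
-/

namespace Vale.Agent.P235

open Finset

variable {V : Type}

lemma sign_mul_self {a : ℝ} (h : a = 1 ∨ a = -1) : a * a = 1 := by
  rcases h with rfl | rfl <;> norm_num

/-- A random sign on a finite set of reals with correlation `exp (-|a - b|)`. -/
lemma exists_signs (A : Finset ℝ) : ∃ (Ω : Type) (_ : Fintype Ω) (p : Ω → ℝ) (χ : ℝ → Ω → ℝ),
    (∀ ω, 0 ≤ p ω) ∧ ∑ ω, p ω = 1 ∧ (∀ a ω, χ a ω = 1 ∨ χ a ω = -1) ∧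
      ∀ a ∈ A, ∀ b ∈ A, ∑ ω, p ω * (χ a ω * χ b ω) = Real.exp (-|a - b|) := by
  classical
  induction A using Finset.induction_on_max with
  | empty => exact ⟨Unit, inferInstance, fun _ => 1, fun _ _ => 1, by simp, by simp, by simp,
      by simp⟩
  | insert a A ha ih =>
    obtain ⟨Ω, _, p, χ, hp, hs, hχ, hcor⟩ := ih
    rcases A.eq_empty_or_nonempty with rfl | hne
    · refine ⟨Unit, inferInstance, fun _ => 1, fun _ _ => 1, by simp, by simp, by simp, ?_⟩
      intro u hu v hv
      simp at hu hv
      simp [hu, hv]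
    set b := A.max' hne with hb
    have hba : b < a := ha b (A.max'_mem hne)
    set E := Real.exp (-(a - b)) with hE
    have hE1 : E ≤ 1 := Real.exp_le_one_iff.mpr (by linarith)
    refine ⟨Ω × Bool, inferInstance,
      fun w => p w.1 * if w.2 then (1 - E) / 2 else (1 + E) / 2,
      fun c w => if c = a then (if w.2 then -χ b w.1 else χ b w.1) else χ c w.1, ?_, ?_, ?_, ?_⟩
    · intro w
      refine mul_nonneg (hp _) ?_
      have := (Real.exp_pos (-(a - b))).le
      split_ifs <;> linarith
    · rw [Fintype.sum_prod_type]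
      simp only [Fintype.sum_bool, if_true, Bool.false_eq_true, if_false]
      exact (Finset.sum_congr rfl fun ω _ => by ring).trans hs
    · intro c w
      dsimp only
      rcases hχ b w.1 with h | h <;> rcases hχ c w.1 with h' | h' <;>
        split_ifs <;> simp [h, h']
    have hnew : ∀ c ∈ A, ∑ w : Ω × Bool, (p w.1 * if w.2 then (1 - E) / 2 else (1 + E) / 2) *
        ((if w.2 then -χ b w.1 else χ b w.1) * χ c w.1) = Real.exp (-|a - c|) := by
      intro c hc
      rw [Fintype.sum_prod_type]
      simp only [Fintype.sum_bool, if_true, Bool.false_eq_true, if_false]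
      have h1 : ∀ ω, p ω * ((1 - E) / 2) * (-χ b ω * χ c ω) +
          p ω * ((1 + E) / 2) * (χ b ω * χ c ω) = E * (p ω * (χ b ω * χ c ω)) :=
        fun ω => by ring
      rw [Finset.sum_congr rfl fun ω _ => h1 ω, ← Finset.mul_sum,
        hcor b (A.max'_mem hne) c hc, hE, ← Real.exp_add]
      congr 1
      have : c ≤ b := A.le_max' c hc
      rw [abs_of_nonneg (by linarith : (0 : ℝ) ≤ b - c),
        abs_of_nonneg (by linarith : (0 : ℝ) ≤ a - c)]
      ring
    intro u hu v hv
    rw [mem_insert] at hu hv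
    have hane : ∀ c ∈ A, c ≠ a := fun c hc => (ha c hc).ne
    by_cases hua : u = a <;> by_cases hva : v = a
    · subst hua; subst hva
      simp only [if_true, sub_self, abs_zero, neg_zero, Real.exp_zero]
      rw [Fintype.sum_prod_type]
      simp only [Fintype.sum_bool, if_true, Bool.false_eq_true, if_false]
      refine Eq.trans (Finset.sum_congr rfl fun ω _ => ?_) hs
      have := sign_mul_self (hχ b ω)
      linear_combination p ω * this
    · subst hua
      simp only [if_true, if_neg hva]
      exact hnew v (hv.resolve_left hva)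
    · subst hva
      simp only [if_true, if_neg hua]
      rw [abs_sub_comm]
      simp only [mul_comm (χ u _)]
      exact hnew u (hu.resolve_left hua)
    · simp only [if_neg hua, if_neg hva]
      rw [Fintype.sum_prod_type]
      simp only [Fintype.sum_bool]
      rw [← hcor u (hu.resolve_left hua) v (hv.resolve_left hva)]
      refine Finset.sum_congr rfl fun ω _ => ?_
      simp only [if_true, Bool.false_eq_true, if_false]
      ring

/-- A random sign on a finite set of points with correlation `exp (-distance / t)`. -/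
lemma exists_signs_l1 [Fintype V] {n : ℕ} (f : V → Fin n → ℝ) :
    ∃ (Ω : Type) (_ : Fintype Ω) (p : Ω → ℝ) (χ : V → Ω → ℝ),
    (∀ ω, 0 ≤ p ω) ∧ ∑ ω, p ω = 1 ∧ (∀ a ω, χ a ω = 1 ∨ χ a ω = -1) ∧
      ∀ x y, ∑ ω, p ω * (χ x ω * χ y ω) = Real.exp (-dist1 (f x) (f y)) := by
  classical
  choose Ω hΩ p χ hp hs hχ hcor using fun j => exists_signs (univ.image fun x => f x j)
  refine ⟨∀ j, Ω j, inferInstance, fun w => ∏ j, p j (w j),
    fun x w => ∏ j, χ j (f x j) (w j), ?_, ?_, ?_, ?_⟩
  · exact fun w => Finset.prod_nonneg fun j _ => hp j _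
  · rw [← Fintype.prod_sum]
    exact Finset.prod_eq_one fun j _ => hs j
  · intro x w
    refine Finset.prod_induction _ (fun a : ℝ => a = 1 ∨ a = -1) ?_ (Or.inl rfl)
      fun j _ => hχ j _ _
    rintro a b (rfl | rfl) (rfl | rfl) <;> norm_num
  · intro x y
    simp only [← Finset.prod_mul_distrib]
    rw [← Fintype.prod_sum fun j ω => p j ω * (χ j (f x j) ω * χ j (f y j) ω)]
    rw [Finset.prod_congr rfl fun j _ => hcor j _ (mem_image_of_mem _ (mem_univ x)) _
      (mem_image_of_mem _ (mem_univ y))]
    rw [← Real.exp_sum, dist1, ← Finset.sum_neg_distrib]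

lemma exp_gap (t : ℝ) (ht : 0 ≤ t) :
    1 - Real.exp (-t) ≤ t ∧ min t 1 / 2 ≤ 1 - Real.exp (-t) := by
  refine ⟨by linarith [Real.add_one_le_exp (-t)], ?_⟩
  have h1 : Real.exp (-t) ≤ 1 / (1 + t) := by
    rw [Real.exp_neg, one_div]
    exact inv_anti₀ (by linarith) (by linarith [Real.add_one_le_exp t])
  have h2 : min t 1 / 2 ≤ 1 - 1 / (1 + t) := by
    rw [le_sub_iff_add_le, div_add_div _ _ two_ne_zero (by linarith : (1 + t : ℝ) ≠ 0),
      div_le_one (by linarith)]
    rcases le_total t 1 with h | h
    · rw [min_eq_left h]; nlinarith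
    · rw [min_eq_right h]; linarith
  linarith

/-- Truncation at scale `M`, separating different classes of `c`. -/
lemma exists_trunc [Fintype V] {κ : Type} [Fintype κ] (c : V → κ) {n : ℕ}
    (f : V → Fin n → ℝ) {M : ℝ} (hM : 0 < M) :
    ∃ (ι : Type) (_ : Fintype ι) (e : V → ι → ℝ),
      (∀ x, ∑ i, |e x i| ≤ 2 * M) ∧
      (∀ x y, c x = c y →
        ∑ i, |e x i - e y i| = M * (1 - Real.exp (-(dist1 (f x) (f y) / M))) / 2) ∧
      (∀ x y, c x ≠ c y → M ≤ ∑ i, |e x i - e y i|) := by
  classical
  obtain ⟨Ω, _, p, χ, hp, hs, hχ, hcor⟩ := exists_signs_l1 fun x j => f x j / M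
  set e : V → κ × Option Ω → ℝ := fun x w =>
    if c x = w.1 then w.2.elim M (fun ω => M * p ω * ((1 + χ x ω) / 2)) else 0 with he
  refine ⟨κ × Option Ω, inferInstance, e, ?_, ?_, ?_⟩
  · intro x
    rw [Fintype.sum_prod_type, Finset.sum_eq_single (c x)]
    · simp only [he, if_true, Fintype.sum_option, Option.elim_none, Option.elim_some]
      have : ∀ ω, |M * p ω * ((1 + χ x ω) / 2)| ≤ M * p ω := fun ω => by
        have := mul_nonneg hM.le (hp ω)
        rcases hχ x ω with h | h <;> simp [h, abs_of_nonneg this, this]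
      calc |M| + ∑ ω, |M * p ω * ((1 + χ x ω) / 2)| ≤ M + ∑ ω, M * p ω := by
            rw [abs_of_pos hM]
            exact add_le_add le_rfl (Finset.sum_le_sum fun ω _ => this ω)
        _ = 2 * M := by rw [← Finset.mul_sum, hs]; ring
    · intro k _ hk
      simp [he, Ne.symm hk]
    · simp
  · intro x y hxy
    rw [Fintype.sum_prod_type, Finset.sum_eq_single (c x)]
    · simp only [he, hxy, if_true, Fintype.sum_option, Option.elim_none, Option.elim_some,
        sub_self, abs_zero, zero_add]
      have h1 : ∀ ω, |M * p ω * ((1 + χ x ω) / 2) - M * p ω * ((1 + χ y ω) / 2)| =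
          M / 2 * (p ω - p ω * (χ x ω * χ y ω)) := fun ω => by
        have := mul_nonneg hM.le (hp ω)
        rcases hχ x ω with h | h <;> rcases hχ y ω with h' | h' <;>
          simp [h, h', abs_of_nonneg this] <;> ring
      rw [Finset.sum_congr rfl fun ω _ => h1 ω, ← Finset.mul_sum, Finset.sum_sub_distrib, hs,
        hcor x y]
      have : dist1 (fun j => f x j / M) (fun j => f y j / M) = dist1 (f x) (f y) / M := by
        simp only [dist1, ← sub_div, abs_div, abs_of_pos hM, ← Finset.sum_div]
      rw [this]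
      ring
    · intro k _ hk
      simp [he, Ne.symm hk, ← hxy]
    · simp
  · intro x y hxy
    refine le_trans ?_ (Finset.single_le_sum (fun i _ => abs_nonneg _)
      (mem_univ ((c x, none) : κ × Option Ω)))
    simp [he, Ne.symm hxy, abs_of_pos hM]

end Vale.Agent.P235
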